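import Crest.Agent.R108.Defs

/-!
# R108 (S0142): the box of base points and the chord estimate (for Lemma H).
-/

set_option autoImplicit false

open Filter Topology Set

namespace Crest.Agent.R108

universe u

namespace Chord

variable {Y : Type u} [NormedAddCommGroup Y] [NormedSpace ℝ Y]

/-- sub-convex combinations based at `p` stay in `K` -/
theorem comb_mem (K : Set Y) (hK : Convex ℝ K) (p : Y) (hp : p ∈ K) (x : ℕ → Y)
    (hx : ∀ k, x k ∈ K) (n : ℕ) (a : ℕ → ℝ) (ha : ∀ j, 0 ≤ a j)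
    (hs : ∑ j ∈ Finset.range n, a j ≤ 1) :
    p + ∑ j ∈ Finset.range n, a j • (x j - p) ∈ K := by
  have e : p + ∑ j ∈ Finset.range n, a j • (x j - p) =
      (1 - ∑ j ∈ Finset.range n, a j) • p + ∑ j ∈ Finset.range n, a j • x j := by
    have : ∑ j ∈ Finset.range n, a j • (x j - p) =
        ∑ j ∈ Finset.range n, a j • x j - (∑ j ∈ Finset.range n, a j) • p := by
      rw [Finset.sum_smul, ← Finset.sum_sub_distrib]
      exact Finset.sum_congr rfl fun j _ => smul_sub _ _ _
    rw [this, sub_smul, one_smul]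
    abel
  rw [e]
  set S := ∑ j ∈ Finset.range n, a j with hS
  have hS0 : 0 ≤ S := Finset.sum_nonneg fun j _ => ha j
  rcases hS0.eq_or_lt with h0 | h0
  · have hz : ∀ j ∈ Finset.range n, a j = 0 := by
      intro j hj
      exact (Finset.sum_eq_zero_iff_of_nonneg (fun j _ => ha j)).mp (hS ▸ h0.symm) j hj
    rw [← h0, Finset.sum_eq_zero (fun j hj => by rw [hz j hj, zero_smul])]
    simpa using hp
  · have h1 : ∑ j ∈ Finset.range n, a j • x j = S • ∑ j ∈ Finset.range n, (S⁻¹ * a j) • x j := by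
      rw [Finset.smul_sum]
      refine Finset.sum_congr rfl fun j _ => ?_
      rw [smul_smul, ← mul_assoc, mul_inv_cancel₀ h0.ne', one_mul]
    have h2 : ∑ j ∈ Finset.range n, (S⁻¹ * a j) • x j ∈ K := by
      refine hK.sum_mem (fun j _ => mul_nonneg (inv_nonneg.mpr hS0) (ha j)) ?_ (fun j _ => hx j)
      rw [← Finset.mul_sum, ← hS, inv_mul_cancel₀ h0.ne']
    rw [h1]
    exact hK hp h2 (by linarith) hS0 (by ring)

/-- points of the box, moved by `t (x k - p)`, `0 ≤ t ≤ ε k`, are in `K` -/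
theorem box_add_mem (K : Set Y) (hK : Convex ℝ K) (p : Y) (hp : p ∈ K) (x : ℕ → Y)
    (hx : ∀ k, x k ∈ K) (ε : ℕ → ℝ) (hε : ∀ k, 0 ≤ ε k)
    (hsum : ∀ n, ∑ j ∈ Finset.range n, ε j ≤ 1) (k : ℕ) (h : Y) (hh : h ∈ Box p x ε k)
    (t : ℝ) (ht : 0 ≤ t) (ht' : t ≤ ε k) :
    h + t • (x k - p) ∈ K := by
  obtain ⟨n, a, ha0, haε, hak, rfl⟩ := hh
  set b : ℕ → ℝ := fun j => if j = k then t else if j < n then a j else 0 with hb
  have hb0 : ∀ j, 0 ≤ b j := by
    intro j
    simp only [hb]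
    split_ifs
    · exact ht
    · exact ha0 j
    · exact le_rfl
  have hbε : ∀ j, b j ≤ ε j := by
    intro j
    simp only [hb]
    split_ifs with h1 h2
    · rw [h1]; exact ht'
    · exact haε j
    · exact hε j
  set N := max n (k + 1) with hN
  have key : p + ∑ j ∈ Finset.range n, a j • (x j - p) + t • (x k - p) =
      p + ∑ j ∈ Finset.range N, b j • (x j - p) := by
    rw [add_assoc]
    congr 1
    have hkN : k ∈ Finset.range N := by rw [Finset.mem_range]; omega
    rw [← Finset.add_sum_erase _ _ hkN]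
    have hbk : b k = t := by simp [hb]
    rw [hbk, add_comm]
    congr 1
    have hsub : (Finset.range n).erase k ⊆ (Finset.range N).erase k := by
      intro j hj
      rw [Finset.mem_erase, Finset.mem_range] at hj ⊢
      exact ⟨hj.1, by omega⟩
    rw [← Finset.sum_subset hsub]
    · have : ∑ j ∈ Finset.range n, a j • (x j - p) =
          ∑ j ∈ (Finset.range n).erase k, a j • (x j - p) := by
        symm
        apply Finset.sum_erase
        rw [hak, zero_smul]
      rw [this]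
      refine Finset.sum_congr rfl fun j hj => ?_
      rw [Finset.mem_erase, Finset.mem_range] at hj
      simp [hb, hj.1, hj.2]
    · intro j hj hj'
      rw [Finset.mem_erase, Finset.mem_range] at hj hj'
      have : ¬ j < n := fun h => hj' ⟨hj.1, h⟩
      simp [hb, hj.1, this]
  rw [key]
  exact comb_mem K hK p hp x hx N b hb0 ((Finset.sum_le_sum fun j _ => hbε j).trans (hsum N))

theorem box_mem (K : Set Y) (hK : Convex ℝ K) (p : Y) (hp : p ∈ K) (x : ℕ → Y)
    (hx : ∀ k, x k ∈ K) (ε : ℕ → ℝ) (hε : ∀ k, 0 ≤ ε k)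
    (hsum : ∀ n, ∑ j ∈ Finset.range n, ε j ≤ 1) (k : ℕ) (h : Y) (hh : h ∈ Box p x ε k) :
    h ∈ K := by
  have := box_add_mem K hK p hp x hx ε hε hsum k h hh 0 le_rfl (hε k)
  simpa using this

/-- distance of a box point to `p` -/
theorem box_dist (p : Y) (x : ℕ → Y) (hd : ∀ k, ‖x k - p‖ ≤ 1) (ε : ℕ → ℝ)
    (k : ℕ) (e : ℝ) (hsum : ∀ n, ∑ j ∈ (Finset.range n).erase k, ε j ≤ e)
    (h : Y) (hh : h ∈ Box p x ε k) :
    ‖h - p‖ ≤ e := by
  obtain ⟨n, a, ha0, haε, hak, rfl⟩ := hh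
  rw [add_sub_cancel_left]
  have h1 : ∑ j ∈ Finset.range n, a j • (x j - p) =
      ∑ j ∈ (Finset.range n).erase k, a j • (x j - p) := by
    symm
    apply Finset.sum_erase
    rw [hak, zero_smul]
  rw [h1]
  refine (norm_sum_le _ _).trans ((Finset.sum_le_sum fun j _ => ?_).trans (hsum n))
  rw [norm_smul, Real.norm_of_nonneg (ha0 j)]
  exact (mul_le_of_le_one_right (ha0 j) (hd j)).trans (haε j)

/-- the chord estimate: all difference quotients in direction `x k - p` at the large scale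
`ε k ≥ 1 - e`, `e ≤ 1/2` are within `8 e` of `z (x k) - z p`. -/
theorem chord (K : Set Y) (hK : Convex ℝ K) (hdiam : ∀ x ∈ K, ∀ y ∈ K, ‖x - y‖ ≤ 1)
    (p : Y) (hp : p ∈ K) (x : ℕ → Y) (hx : ∀ k, x k ∈ K) (ε : ℕ → ℝ) (hε : ∀ k, 0 ≤ ε k)
    (hsum : ∀ n, ∑ j ∈ Finset.range n, ε j ≤ 1)
    (z : Y → Y) (hz : MapsTo z K K) (hzne : ∀ a ∈ K, ∀ b ∈ K, ‖z a - z b‖ ≤ ‖a - b‖)
    (k : ℕ) (e : ℝ) (he : e ≤ 1 / 2) (hke : 1 - e ≤ ε k) (hk1 : ε k ≤ 1)
    (hrest : ∀ n, ∑ j ∈ (Finset.range n).erase k, ε j ≤ e)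
    (w : Y) (hw : w ∈ closure (convexHull ℝ (Quot z p x ε k))) :
    ‖w - (z (x k) - z p)‖ ≤ 8 * e := by
  have he0 : 0 ≤ e := by
    have := hrest 0
    simpa using this
  have hεk : 0 < ε k := by linarith
  have hsub : Quot z p x ε k ⊆ Metric.closedBall (z (x k) - z p) (8 * e) := by
    rintro w ⟨h, hh, rfl⟩
    rw [mem_closedBall_iff_norm]
    have hhK : h ∈ K := box_mem K hK p hp x hx ε hε hsum k h hh
    have hhK' : h + ε k • (x k - p) ∈ K :=
      box_add_mem K hK p hp x hx ε hε hsum k h hh _ hεk.le le_rfl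
    have hhp : ‖h - p‖ ≤ e :=
      box_dist p x (fun j => hdiam _ (hx j) _ hp) ε k e hrest h hh
    set u := z (h + ε k • (x k - p)) with hu
    have h1 : ‖u - z (x k)‖ ≤ 2 * e := by
      refine (hzne _ hhK' _ (hx k)).trans ?_
      have e1 : h + ε k • (x k - p) - x k = (h - p) + (ε k - 1) • (x k - p) := by
        rw [sub_smul, one_smul]; abel
      rw [e1]
      have h2 : ‖(ε k - 1) • (x k - p)‖ ≤ e := by
        rw [norm_smul, Real.norm_eq_abs, abs_of_nonpos (by linarith)]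
        have := hdiam _ (hx k) _ hp
        have h3 : 0 ≤ -(ε k - 1) := by linarith
        calc -(ε k - 1) * ‖x k - p‖ ≤ -(ε k - 1) * 1 := mul_le_mul_of_nonneg_left this h3
          _ ≤ e := by linarith
      have := norm_add_le (h - p) ((ε k - 1) • (x k - p))
      linarith
    have h2 : ‖z h - z p‖ ≤ e := (hzne _ hhK _ hp).trans hhp
    have h3 : ‖z (x k) - z p‖ ≤ 1 := hdiam _ (hz (hx k)) _ (hz hp)
    have e2 : (ε k)⁻¹ • (u - z h) - (z (x k) - z p) =
        (ε k)⁻¹ • ((u - z (x k)) - (z h - z p) + (1 - ε k) • (z (x k) - z p)) := by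
      have e3 : z (x k) - z p = (ε k)⁻¹ • (ε k • (z (x k) - z p)) := by
        rw [smul_smul, inv_mul_cancel₀ hεk.ne', one_smul]
      nth_rewrite 1 [e3]
      rw [← smul_sub]
      congr 1
      rw [sub_smul, one_smul]
      abel
    rw [e2, norm_smul, norm_inv, Real.norm_of_nonneg hεk.le]
    have h4 : ‖(u - z (x k)) - (z h - z p) + (1 - ε k) • (z (x k) - z p)‖ ≤ 4 * e := by
      refine (norm_add_le _ _).trans ?_
      have h5 := norm_sub_le (u - z (x k)) (z h - z p)
      have h6 : ‖(1 - ε k) • (z (x k) - z p)‖ ≤ e := by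
        rw [norm_smul, Real.norm_eq_abs, abs_of_nonneg (by linarith)]
        calc (1 - ε k) * ‖z (x k) - z p‖ ≤ (1 - ε k) * 1 :=
              mul_le_mul_of_nonneg_left h3 (by linarith)
          _ ≤ e := by linarith
      linarith
    have h5 : (ε k)⁻¹ ≤ 2 := by
      rw [inv_le_comm₀ hεk (by norm_num)]
      linarith
    calc (ε k)⁻¹ * ‖(u - z (x k)) - (z h - z p) + (1 - ε k) • (z (x k) - z p)‖
        ≤ 2 * (4 * e) := mul_le_mul h5 h4 (norm_nonneg _) (by norm_num)
      _ = 8 * e := by ring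
  have hcl : closure (convexHull ℝ (Quot z p x ε k)) ⊆
      Metric.closedBall (z (x k) - z p) (8 * e) :=
    closure_minimal (convexHull_min hsub (convex_closedBall _ _)) Metric.isClosed_closedBall
  have := hcl hw
  rwa [mem_closedBall_iff_norm] at this

end Chord

end Crest.Agent.R108
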