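import Crest.Agent.R108.Defs
import Crest.Agent.R108.Coll

set_option autoImplicit false

open Filter Topology Set

namespace Crest.Agent.R108

universe u

section Sys

variable {Y : Type u} [NormedAddCommGroup Y] [NormedSpace ℝ Y]

lemma MinSys.bounded (M : MinSys Y) : Bornology.IsBounded M.K := by
  rw [Metric.isBounded_iff]
  exact ⟨1, fun x hx y hy => by rw [dist_eq_norm]; exact M.diam_le x hx y hy⟩

lemma MinSys.minInv (M : MinSys Y) : Coll.MinInv M.K M.T :=
  ⟨M.nonempty, M.closed, M.convex, M.bounded, ⟨M.mapsTo, M.nonexp⟩, M.minimal⟩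

lemma MinSys.diam_eq (M : MinSys Y) : Metric.diam M.K = 1 := by
  refine le_antisymm (Metric.diam_le_of_forall_dist_le zero_le_one fun x hx y hy => by
    rw [dist_eq_norm]; exact M.diam_le x hx y hy) ?_
  refine le_of_forall_lt fun c hc => ?_
  obtain ⟨x, hx, y, hy, h⟩ := M.diam_ge c hc
  rw [← dist_eq_norm] at h
  exact h.trans_le (Metric.dist_le_diam_of_mem M.bounded hx hy)

lemma inG_iff (M : MinSys Y) {R : Y → Y} : InG M R ↔ Coll.InG M.K M.T R := by
  constructor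
  · rintro ⟨h1, h2, h3⟩; exact ⟨⟨h1, h2⟩, h3⟩
  · rintro ⟨⟨h1, h2⟩, h3⟩; exact ⟨h1, h2, h3⟩

/-- G1. class `InG` is closed under composition, contains `id` and is convex, and `T ∘`. -/
theorem inG_id (M : MinSys Y) : InG M id := (inG_iff M).2 Coll.InG.id

theorem inG_comp (M : MinSys Y) {R R' : Y → Y} (h : InG M R) (h' : InG M R') :
    InG M (R ∘ R') :=
  (inG_iff M).2 (((inG_iff M).1 h).comp ((inG_iff M).1 h') M.minInv.ne)

theorem inG_T (M : MinSys Y) : InG M M.T := (inG_iff M).2 (Coll.InG.self M.minInv.ne)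

theorem inG_convex (M : MinSys Y) {R R' : Y → Y} (h : InG M R) (h' : InG M R') (a b : ℝ)
    (ha : 0 ≤ a) (hb : 0 ≤ b) (hab : a + b = 1) :
    InG M (fun x => a • R x + b • R' x) :=
  (inG_iff M).2 (((inG_iff M).1 h).combo ((inG_iff M).1 h') M.convex ha hb hab)

/-- G2. collapse of two points. -/
theorem collapse (M : MinSys Y) (x y : Y) (hx : x ∈ M.K) (hy : y ∈ M.K) (ε : ℝ) (hε : 0 < ε) :
    ∃ G : Y → Y, InG M G ∧ ‖G x - G y‖ < ε := by
  obtain ⟨R, hR, h⟩ := M.minInv.collapse hx hy hε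
  exact ⟨R, (inG_iff M).2 hR, h⟩

/-- G3. collapse of finitely many points. -/
theorem collapse_fin (M : MinSys Y) (d : ℕ → Y) (hd : ∀ k, d k ∈ M.K) (n : ℕ) (ε : ℝ)
    (hε : 0 < ε) :
    ∃ G : Y → Y, InG M G ∧ ∀ i ≤ n, ‖G (d i) - G (d 0)‖ < ε := by
  obtain ⟨R, hR, h⟩ := M.minInv.collapse_finite d hd n (ε / 2) (by linarith)
  exact ⟨R, (inG_iff M).2 hR, fun i hi => (h i hi 0 (Nat.zero_le _)).trans_lt (by linarith)⟩

end Sys

end Crest.Agent.R108
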