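import Crest.Agent.R108.Defs

/-!
# R108 (S0142): Lemma GRAD (average gradient), by iterated discrete averages and one weak
ultrafilter limit. `Avg.grad` is the version without the dyadic and closedness hypotheses.
-/

set_option autoImplicit false

open Filter Topology Set

namespace Crest.Agent.R108.Avg

universe u

variable {Y : Type u} [NormedAddCommGroup Y] [NormedSpace ℝ Y]

/-- iterated discrete average in the directions `u 0, …, u (N-1)` with `M` steps each -/
noncomputable def avg (M : ℕ) (u : ℕ → Y) : ℕ → (Y → Y) → Y → Y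
  | 0, G, h => G h
  | (n + 1), G, h => (M : ℝ)⁻¹ • ∑ i ∈ Finset.range M, avg M u n G (h + ((i : ℝ) / M) • u n)

theorem avg_zero (M : ℕ) (u : ℕ → Y) (G : Y → Y) (h : Y) : avg M u 0 G h = G h := rfl

theorem avg_succ (M : ℕ) (u : ℕ → Y) (n : ℕ) (G : Y → Y) (h : Y) :
    avg M u (n + 1) G h =
      (M : ℝ)⁻¹ • ∑ i ∈ Finset.range M, avg M u n G (h + ((i : ℝ) / M) • u n) := rfl

theorem avg_sub (M : ℕ) (u : ℕ → Y) (n : ℕ) (F G : Y → Y) (h : Y) :
    avg M u n (fun y => F y - G y) h = avg M u n F h - avg M u n G h := by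
  induction n generalizing h with
  | zero => rfl
  | succ n ih => simp only [avg_succ, ih, Finset.sum_sub_distrib, smul_sub]

theorem avg_smul (M : ℕ) (u : ℕ → Y) (n : ℕ) (c : ℝ) (F : Y → Y) (h : Y) :
    avg M u n (fun y => c • F y) h = c • avg M u n F h := by
  induction n generalizing h with
  | zero => rfl
  | succ n ih => simp only [avg_succ, ih, ← Finset.smul_sum, smul_comm c]

theorem avg_translate (M : ℕ) (u : ℕ → Y) (n : ℕ) (F : Y → Y) (w h : Y) :
    avg M u n (fun y => F (y + w)) h = avg M u n F (h + w) := by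
  induction n generalizing h with
  | zero => rfl
  | succ n ih =>
    simp only [avg_succ, ih]
    congr 1
    refine Finset.sum_congr rfl fun i _ => ?_
    rw [add_right_comm]

theorem avg_congr (M : ℕ) (u u' : ℕ → Y) (n : ℕ) (F : Y → Y) (hu : ∀ j < n, u j = u' j) (h : Y) :
    avg M u n F h = avg M u' n F h := by
  induction n generalizing h with
  | zero => rfl
  | succ n ih =>
    simp only [avg_succ]
    rw [hu n (Nat.lt_succ_self n)]
    congr 1
    refine Finset.sum_congr rfl fun i _ => ?_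
    exact ih (fun j hj => hu j (Nat.lt_succ_of_lt hj)) _

theorem avg_step (M : ℕ) (hM : 0 < M) (u : ℕ → Y) (n k : ℕ) (hk : k < n) (F : Y → Y) (h : Y) :
    avg M u n F (h + (M : ℝ)⁻¹ • u k) - avg M u n F h =
      (M : ℝ)⁻¹ • avg M (Function.update u k 0) n (fun y => F (y + u k) - F y) h := by
  have hM' : (M : ℝ) ≠ 0 := by positivity
  induction n generalizing h with
  | zero => omega
  | succ n ih =>
    rcases Nat.lt_or_ge k n with hkn | hkn
    · simp only [avg_succ]
      have hne : n ≠ k := by omega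
      rw [Function.update_of_ne hne, ← smul_sub, ← Finset.sum_sub_distrib]
      congr 1
      rw [Finset.smul_sum]
      refine Finset.sum_congr rfl fun i _ => ?_
      rw [← ih hkn, add_right_comm]
    · have hkn' : k = n := by omega
      subst hkn'
      simp only [avg_succ]
      rw [Function.update_self, ← smul_sub, ← Finset.sum_sub_distrib]
      congr 1
      simp only [smul_zero, add_zero]
      rw [Finset.sum_const, Finset.card_range]
      have e1 : ∀ i : ℕ, avg M u k F (h + (M : ℝ)⁻¹ • u k + ((i : ℝ) / M) • u k)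
          = avg M u k F (h + (((i + 1 : ℕ) : ℝ) / M) • u k) := by
        intro i
        congr 1
        rw [add_assoc, ← add_smul]
        congr 2
        push_cast
        field_simp
        ring
      simp only [e1]
      rw [Finset.sum_range_sub (fun i : ℕ => avg M u k F (h + ((i : ℝ) / M) • u k))]
      rw [← Nat.cast_smul_eq_nsmul ℝ, smul_smul, inv_mul_cancel₀ hM', one_smul]
      rw [avg_congr M (Function.update u k 0) u k _
        (fun j hj => Function.update_of_ne (by omega) _ _), avg_sub, avg_translate]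
      simp [hM']

theorem mem_avg (M : ℕ) (hM : 0 < M) (u : ℕ → Y) (n : ℕ) (F : Y → Y) (D : Set Y)
    (hD : Convex ℝ D) (h : Y)
    (hF : ∀ a : ℕ → ℝ, (∀ j, 0 ≤ a j) → (∀ j, a j ≤ 1) →
      F (h + ∑ j ∈ Finset.range n, a j • u j) ∈ D) :
    avg M u n F h ∈ D := by
  have hM' : (M : ℝ) ≠ 0 := by positivity
  induction n generalizing h with
  | zero =>
    have := hF (fun _ => 0) (fun _ => le_refl _) (fun _ => zero_le_one)
    simpa [avg_zero] using this
  | succ n ih =>
    rw [avg_succ, Finset.smul_sum]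
    refine hD.sum_mem (fun i _ => by positivity) ?_ ?_
    · rw [Finset.sum_const, Finset.card_range, nsmul_eq_mul, mul_inv_cancel₀ hM']
    · intro i hi
      refine ih _ ?_
      intro a ha0 ha1
      have hiM : i < M := Finset.mem_range.1 hi
      have key := hF (Function.update a n ((i : ℝ) / M)) ?_ ?_
      · rw [Finset.sum_range_succ, Function.update_self] at key
        have e : ∑ j ∈ Finset.range n, Function.update a n ((i : ℝ) / M) j • u j
            = ∑ j ∈ Finset.range n, a j • u j := by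
          refine Finset.sum_congr rfl fun j hj => ?_
          rw [Function.update_of_ne (Finset.mem_range.1 hj).ne]
        rw [e] at key
        have e2 : h + ((i : ℝ) / M) • u n + ∑ j ∈ Finset.range n, a j • u j
            = h + (∑ j ∈ Finset.range n, a j • u j + ((i : ℝ) / M) • u n) := by
          abel
        rw [e2]
        exact key
      · intro j
        by_cases hj : j = n
        · subst hj; rw [Function.update_self]; positivity
        · rw [Function.update_of_ne hj]; exact ha0 j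
      · intro j
        by_cases hj : j = n
        · subst hj; rw [Function.update_self, div_le_one (by positivity)]; exact_mod_cast hiM.le
        · rw [Function.update_of_ne hj]; exact ha1 j

theorem avg_lip (M : ℕ) (hM : 0 < M) (u : ℕ → Y) (n : ℕ) (F : Y → Y) (C : ℝ) (h h' : Y)
    (hF : ∀ a : ℕ → ℝ, (∀ j, 0 ≤ a j) → (∀ j, a j ≤ 1) →
      ‖F (h + ∑ j ∈ Finset.range n, a j • u j) - F (h' + ∑ j ∈ Finset.range n, a j • u j)‖ ≤ C) :
    ‖avg M u n F h - avg M u n F h'‖ ≤ C := by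
  have e : avg M u n F h - avg M u n F h'
      = avg M u n (fun y => F (y + h) - F (y + h')) 0 := by
    rw [avg_sub, avg_translate, avg_translate, zero_add, zero_add]
  rw [e, ← mem_closedBall_zero_iff]
  refine mem_avg M hM u n _ _ (convex_closedBall 0 C) 0 ?_
  intro a ha0 ha1
  rw [mem_closedBall_zero_iff]
  have := hF a ha0 ha1
  rw [zero_add, add_comm _ h, add_comm _ h']
  exact this

/-! ### the domain -/

/-- points `(1-s) p + s y` with `y ∈ K`, `0 ≤ s ≤ r` -/
def Dom (K : Set Y) (p : Y) (r : ℝ) : Set Y :=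
  {h | ∃ y ∈ K, ∃ s : ℝ, 0 ≤ s ∧ s ≤ r ∧ h = p + s • (y - p)}

theorem dom_self {K : Set Y} {p : Y} (hp : p ∈ K) {r : ℝ} (hr : 0 ≤ r) : p ∈ Dom K p r :=
  ⟨p, hp, 0, le_refl _, hr, by simp⟩

theorem dom_mono {K : Set Y} {p h : Y} {r r' : ℝ} (hh : h ∈ Dom K p r) (hr : r ≤ r') :
    h ∈ Dom K p r' := by
  obtain ⟨y, hy, s, h0, h1, rfl⟩ := hh
  exact ⟨y, hy, s, h0, h1.trans hr, rfl⟩

theorem dom_add {K : Set Y} (hK : Convex ℝ K) {p h x : Y} {r t : ℝ} (hh : h ∈ Dom K p r)
    (hx : x ∈ K) (ht : 0 ≤ t) : h + t • (x - p) ∈ Dom K p (r + t) := by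
  obtain ⟨y, hy, s, h0, h1, rfl⟩ := hh
  rcases eq_or_lt_of_le (add_nonneg h0 ht) with h2 | h2
  · have hs : s = 0 := by linarith
    have ht' : t = 0 := by linarith
    subst hs; subst ht'
    exact ⟨y, hy, 0, le_refl _, by linarith, by simp⟩
  · refine ⟨(s / (s + t)) • y + (t / (s + t)) • x, ?_, s + t, h2.le, by linarith, ?_⟩
    · refine hK hy hx (by positivity) (by positivity) ?_
      field_simp
    · have e1 : (s + t) • ((s / (s + t)) • y + (t / (s + t)) • x - p)
          = s • y + t • x - (s + t) • p := by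
        rw [smul_sub, smul_add, smul_smul, smul_smul, mul_div_cancel₀ _ h2.ne',
          mul_div_cancel₀ _ h2.ne']
      rw [e1]
      module

theorem dom_sub {K : Set Y} (hK : Convex ℝ K) {p h : Y} (hp : p ∈ K) {r : ℝ} (hh : h ∈ Dom K p r)
    (hr : r ≤ 1) : h ∈ K := by
  obtain ⟨y, hy, s, h0, h1, rfl⟩ := hh
  have := hK hp hy (sub_nonneg.2 (h1.trans hr)) h0 (by ring)
  convert this using 1
  module

theorem dom_sum {K : Set Y} (hK : Convex ℝ K) {p : Y} {x : ℕ → Y} (hx : ∀ k, x k ∈ K)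
    {ε : ℕ → ℝ} {r : ℝ} {h : Y} (hh : h ∈ Dom K p r) (a : ℕ → ℝ) (ha0 : ∀ j, 0 ≤ a j)
    (ha1 : ∀ j, a j ≤ ε j) (n : ℕ) :
    h + ∑ j ∈ Finset.range n, a j • (x j - p) ∈ Dom K p (r + ∑ j ∈ Finset.range n, ε j) := by
  induction n with
  | zero => simpa using hh
  | succ n ih =>
    rw [Finset.sum_range_succ, Finset.sum_range_succ, ← add_assoc, ← add_assoc]
    refine dom_mono (dom_add hK ih (hx n) (ha0 n)) ?_
    have := ha1 n
    linarith

theorem dom_multiset {K : Set Y} (hK : Convex ℝ K) {p : Y} (hp : p ∈ K) {x : ℕ → Y}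
    (hx : ∀ k, x k ∈ K) {ε : ℕ → ℝ} (hε : ∀ k, 0 < ε k) (hε1 : ∀ k, ε k ≤ 1) (M : ℕ)
    (L : Multiset ℕ) :
    p + (M : ℝ)⁻¹ • (L.map fun k => ε k • (x k - p)).sum ∈
      Dom K p ((M : ℝ)⁻¹ * (Multiset.card L : ℝ)) := by
  induction L using Multiset.induction with
  | empty => simpa using dom_self hp (le_refl _)
  | cons k L ih =>
    rw [Multiset.map_cons, Multiset.sum_cons, Multiset.card_cons]
    have h1 := dom_add hK ih (hx k) (t := (M : ℝ)⁻¹ * ε k)
      (mul_nonneg (by positivity) (hε k).le)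
    have e : p + (M : ℝ)⁻¹ • (ε k • (x k - p) + (L.map fun k => ε k • (x k - p)).sum)
        = p + (M : ℝ)⁻¹ • (L.map fun k => ε k • (x k - p)).sum
          + ((M : ℝ)⁻¹ * ε k) • (x k - p) := by
      rw [smul_add, smul_smul]; abel
    rw [e]
    refine dom_mono h1 ?_
    push_cast
    have : (M : ℝ)⁻¹ * ε k ≤ (M : ℝ)⁻¹ * 1 :=
      mul_le_mul_of_nonneg_left (hε1 k) (by positivity)
    linarith

theorem norm_multiset {p : Y} {x : ℕ → Y} (hd : ∀ k, ‖x k - p‖ ≤ 1) {ε : ℕ → ℝ}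
    (hε : ∀ k, 0 < ε k) (hε1 : ∀ k, ε k ≤ 1) (L : Multiset ℕ) :
    ‖(L.map fun k => ε k • (x k - p)).sum‖ ≤ (Multiset.card L : ℝ) := by
  induction L using Multiset.induction with
  | empty => simp
  | cons k L ih =>
    rw [Multiset.map_cons, Multiset.sum_cons, Multiset.card_cons]
    refine (norm_add_le _ _).trans ?_
    rw [norm_smul, Real.norm_of_nonneg (hε k).le]
    push_cast
    have : ε k * ‖x k - p‖ ≤ 1 * 1 :=
      mul_le_mul (hε1 k) (hd k) (norm_nonneg _) zero_le_one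
    linarith


/-! ### the averaged gradient -/

/-- averaged difference quotient in direction `u k` (scale `ε k`) -/
noncomputable def wq (M : ℕ) (u : ℕ → Y) (ε : ℕ → ℝ) (z : Y → Y) (n k : ℕ) (h : Y) : Y :=
  avg M (Function.update u k 0) n (fun y => (ε k)⁻¹ • (z (y + u k) - z y)) h

section Main

variable {K : Set Y} (hK : Convex ℝ K) {z : Y → Y}
  (hzne : ∀ a ∈ K, ∀ b ∈ K, ‖z a - z b‖ ≤ ‖a - b‖) {p : Y} (hp : p ∈ K) {x : ℕ → Y}
  (hx : ∀ k, x k ∈ K) (hd : ∀ k, ‖x k - p‖ ≤ 1) {ε : ℕ → ℝ} (hε : ∀ k, 0 < ε k)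
  (hsum : ∀ n, ∑ j ∈ Finset.range n, ε j ≤ 1)

include hε hsum in
theorem eps_le_one (k : ℕ) : ε k ≤ 1 := by
  have h1 := hsum (k + 1)
  have h2 : ε k ≤ ∑ j ∈ Finset.range (k + 1), ε j :=
    Finset.single_le_sum (fun j _ => (hε j).le) (Finset.self_mem_range_succ k)
  linarith

include hε in
theorem step_wq (M : ℕ) (hM : 0 < M) (u : ℕ → Y) (n k : ℕ) (hk : k < n) (h : Y) :
    avg M u n z (h + (M : ℝ)⁻¹ • u k) - avg M u n z h =
      ((M : ℝ)⁻¹ * ε k) • wq M u ε z n k h := by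
  rw [avg_step M hM u n k hk, wq, avg_smul, smul_smul, mul_assoc, mul_inv_cancel₀ (hε k).ne',
    mul_one]

include hK hp hx hε hsum in
/-- shifted grid points stay in `K` -/
theorem shift_mem (M : ℕ) (n : ℕ) (hMn : ((n : ℝ) + 1) * (M : ℝ)⁻¹ ≤ ε n)
    (L : Multiset ℕ) (hL : Multiset.card L ≤ n) (a : ℕ → ℝ) (ha0 : ∀ j, 0 ≤ a j)
    (ha1 : ∀ j, a j ≤ 1) :
    (p + (M : ℝ)⁻¹ • (L.map fun k => ε k • (x k - p)).sum)
      + ∑ j ∈ Finset.range n, a j • (ε j • (x j - p)) ∈ K := by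
  have hε1 := eps_le_one hε hsum
  have h1 := dom_multiset hK hp hx hε hε1 M L
  have h2 := dom_sum hK hx (ε := ε) h1 (fun j => a j * ε j) (fun j => mul_nonneg (ha0 j) (hε j).le)
    (fun j => by nlinarith [ha1 j, hε j]) n
  have e : ∑ j ∈ Finset.range n, (a j * ε j) • (x j - p)
      = ∑ j ∈ Finset.range n, a j • (ε j • (x j - p)) :=
    Finset.sum_congr rfl fun j _ => by rw [smul_smul]
  rw [e] at h2
  refine dom_sub hK hp h2 ?_
  have h3 := hsum (n + 1)
  rw [Finset.sum_range_succ] at h3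
  have h4 : (M : ℝ)⁻¹ * (Multiset.card L : ℝ) ≤ ε n := by
    refine le_trans ?_ hMn
    rw [mul_comm]
    refine mul_le_mul_of_nonneg_right ?_ (by positivity)
    have : (Multiset.card L : ℝ) ≤ n := by exact_mod_cast hL
    linarith
  linarith

include hK hp hx hε hsum hzne in
theorem avg_nonexp (M : ℕ) (hM : 0 < M) (n : ℕ) (hMn : ((n : ℝ) + 1) * (M : ℝ)⁻¹ ≤ ε n)
    (L L' : Multiset ℕ) (hL : Multiset.card L ≤ n) (hL' : Multiset.card L' ≤ n) :
    ‖avg M (fun k => ε k • (x k - p)) n z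
        (p + (M : ℝ)⁻¹ • (L.map fun k => ε k • (x k - p)).sum)
      - avg M (fun k => ε k • (x k - p)) n z
        (p + (M : ℝ)⁻¹ • (L'.map fun k => ε k • (x k - p)).sum)‖
      ≤ (M : ℝ)⁻¹ * ‖(L.map fun k => ε k • (x k - p)).sum
          - (L'.map fun k => ε k • (x k - p)).sum‖ := by
  refine avg_lip M hM _ n z _ _ _ ?_
  intro a ha0 ha1
  refine (hzne _ (shift_mem hK hp hx hε hsum M n hMn L hL a ha0 ha1) _
    (shift_mem hK hp hx hε hsum M n hMn L' hL' a ha0 ha1)).trans ?_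
  rw [add_sub_add_right_eq_sub, add_sub_add_left_eq_sub, ← smul_sub, norm_smul,
    Real.norm_of_nonneg (by positivity)]

include hK hp hx hε hsum hzne hd in
theorem wq_lip (M : ℕ) (hM : 0 < M) (n : ℕ) (hMn : ((n : ℝ) + 1) * (M : ℝ)⁻¹ ≤ ε n)
    (L : Multiset ℕ) (hL : Multiset.card L ≤ n) (k : ℕ) (hk : k < n) :
    ‖wq M (fun k => ε k • (x k - p)) ε z n k
        (p + (M : ℝ)⁻¹ • (L.map fun k => ε k • (x k - p)).sum)
      - wq M (fun k => ε k • (x k - p)) ε z n k p‖
      ≤ (ε k)⁻¹ * (2 * ((M : ℝ)⁻¹ * (Multiset.card L : ℝ))) := by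
  unfold wq
  refine avg_lip M hM _ n _ _ _ _ ?_
  intro a ha0 ha1
  have hε1 := eps_le_one hε hsum
  have eu : ∑ j ∈ Finset.range n, a j • Function.update (fun k => ε k • (x k - p)) k 0 j
      = ∑ j ∈ Finset.range n, Function.update a k 0 j • (ε j • (x j - p)) := by
    refine Finset.sum_congr rfl fun j _ => ?_
    by_cases hj : j = k
    · subst hj; simp
    · rw [Function.update_of_ne hj, Function.update_of_ne hj]
  have eu1 : ∑ j ∈ Finset.range n, Function.update a k 0 j • (ε j • (x j - p)) + ε k • (x k - p)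
      = ∑ j ∈ Finset.range n, Function.update a k 1 j • (ε j • (x j - p)) := by
    rw [← Finset.sum_erase_add _ _ (Finset.mem_range.2 hk),
      ← Finset.sum_erase_add (Finset.range n) (fun j => Function.update a k 1 j • (ε j • (x j - p)))
        (Finset.mem_range.2 hk)]
    rw [Function.update_self, Function.update_self, zero_smul, add_zero, one_smul]
    congr 1
    refine Finset.sum_congr rfl fun j hj => ?_
    rw [Function.update_of_ne (Finset.ne_of_mem_erase hj),
      Function.update_of_ne (Finset.ne_of_mem_erase hj)]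
  rw [eu]
  have u0 : ∀ j, 0 ≤ Function.update a k (0:ℝ) j := fun j => by
    by_cases hj : j = k
    · subst hj; simp
    · rw [Function.update_of_ne hj]; exact ha0 j
  have u0' : ∀ j, Function.update a k (0:ℝ) j ≤ 1 := fun j => by
    by_cases hj : j = k
    · subst hj; simp
    · rw [Function.update_of_ne hj]; exact ha1 j
  have u1 : ∀ j, 0 ≤ Function.update a k (1:ℝ) j := fun j => by
    by_cases hj : j = k
    · subst hj; simp
    · rw [Function.update_of_ne hj]; exact ha0 j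
  have u1' : ∀ j, Function.update a k (1:ℝ) j ≤ 1 := fun j => by
    by_cases hj : j = k
    · subst hj; simp
    · rw [Function.update_of_ne hj]; exact ha1 j
  have m1 := shift_mem hK hp hx hε hsum M n hMn L hL _ u0 u0'
  have m2 := shift_mem hK hp hx hε hsum M n hMn L hL _ u1 u1'
  have m3 := shift_mem hK hp hx hε hsum M n hMn 0 (by simp) _ u0 u0'
  have m4 := shift_mem hK hp hx hε hsum M n hMn 0 (by simp) _ u1 u1'
  simp only [Multiset.map_zero, Multiset.sum_zero, smul_zero, add_zero] at m3 m4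
  rw [← eu1, ← add_assoc] at m2 m4
  have hη : ‖(M : ℝ)⁻¹ • (L.map fun k => ε k • (x k - p)).sum‖
      ≤ (M : ℝ)⁻¹ * (Multiset.card L : ℝ) := by
    rw [norm_smul, Real.norm_of_nonneg (by positivity)]
    exact mul_le_mul_of_nonneg_left (norm_multiset hd hε hε1 L) (by positivity)
  have d1 := hzne _ m1 _ m3
  have d2 := hzne _ m2 _ m4
  rw [add_sub_add_right_eq_sub, add_sub_cancel_left] at d1
  rw [add_sub_add_right_eq_sub, add_sub_add_right_eq_sub, add_sub_cancel_left] at d2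
  rw [← smul_sub, norm_smul, Real.norm_of_nonneg (inv_nonneg.2 (hε k).le)]
  refine mul_le_mul_of_nonneg_left ?_ (inv_nonneg.2 (hε k).le)
  have e3 : ∀ A B C D : Y, A - B - (C - D) = (A - C) - (B - D) := fun A B C D => by abel
  rw [e3]
  refine (norm_sub_le _ _).trans ?_
  linarith

include hK hp hx hε hsum hzne hd in
theorem avg_path (M : ℕ) (hM : 0 < M) (n : ℕ) (hMn : ((n : ℝ) + 1) * (M : ℝ)⁻¹ ≤ ε n)
    (L : Multiset ℕ) (hL : Multiset.card L ≤ n) (hLn : ∀ k ∈ L, k < n) :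
    ‖avg M (fun k => ε k • (x k - p)) n z
        (p + (M : ℝ)⁻¹ • (L.map fun k => ε k • (x k - p)).sum)
      - avg M (fun k => ε k • (x k - p)) n z p
      - (M : ℝ)⁻¹ • (L.map fun k => ε k • wq M (fun k => ε k • (x k - p)) ε z n k p).sum‖
      ≤ ((M : ℝ)⁻¹) ^ 2 * (Multiset.card L : ℝ) ^ 2 := by
  induction L using Multiset.induction with
  | empty => simp
  | cons k L ih =>
    have hcard : Multiset.card L ≤ n := by
      rw [Multiset.card_cons] at hL; omega
    have hk : k < n := hLn k (Multiset.mem_cons_self k L)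
    have ih' := ih hcard (fun j hj => hLn j (Multiset.mem_cons_of_mem hj))
    simp only [Multiset.map_cons, Multiset.sum_cons, Multiset.card_cons]
    set u : ℕ → Y := fun k => ε k • (x k - p) with hu
    set η : Y := (L.map u).sum with hη
    set W : Y := (L.map fun k => ε k • wq M u ε z n k p).sum with hW
    have e1 : p + (M : ℝ)⁻¹ • (ε k • (x k - p) + η) = (p + (M : ℝ)⁻¹ • η) + (M : ℝ)⁻¹ • u k := by
      simp only [hu, smul_add]; abel
    have e2 := step_wq (z := z) hε M hM u n k hk (p + (M : ℝ)⁻¹ • η)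
    have e3 := wq_lip hK hzne hp hx hd hε hsum M hM n hMn L hcard k hk
    rw [← hu, ← hη] at e3
    rw [e1]
    have e4 : avg M u n z (p + (M : ℝ)⁻¹ • η + (M : ℝ)⁻¹ • u k) - avg M u n z p
        - (M : ℝ)⁻¹ • (ε k • wq M u ε z n k p + W)
        = (avg M u n z (p + (M : ℝ)⁻¹ • η) - avg M u n z p - (M : ℝ)⁻¹ • W)
          + ((M : ℝ)⁻¹ * ε k) • (wq M u ε z n k (p + (M : ℝ)⁻¹ • η) - wq M u ε z n k p) := by
      have e6 : ((M : ℝ)⁻¹ * ε k) • (wq M u ε z n k (p + (M : ℝ)⁻¹ • η) - wq M u ε z n k p)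
          = (avg M u n z (p + (M : ℝ)⁻¹ • η + (M : ℝ)⁻¹ • u k) - avg M u n z (p + (M : ℝ)⁻¹ • η))
            - (M : ℝ)⁻¹ • (ε k • wq M u ε z n k p) := by
        rw [smul_sub, ← e2, mul_smul]
      rw [e6, smul_add]; abel
    rw [e4]
    refine (norm_add_le _ _).trans ?_
    have e5 : ‖((M : ℝ)⁻¹ * ε k) • (wq M u ε z n k (p + (M : ℝ)⁻¹ • η) - wq M u ε z n k p)‖
        ≤ ((M : ℝ)⁻¹) ^ 2 * (2 * (Multiset.card L : ℝ)) := by
      rw [norm_smul, Real.norm_of_nonneg (mul_nonneg (by positivity) (hε k).le)]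
      calc (M : ℝ)⁻¹ * ε k * ‖wq M u ε z n k (p + (M : ℝ)⁻¹ • η) - wq M u ε z n k p‖
          ≤ (M : ℝ)⁻¹ * ε k * ((ε k)⁻¹ * (2 * ((M : ℝ)⁻¹ * (Multiset.card L : ℝ)))) :=
            mul_le_mul_of_nonneg_left e3 (mul_nonneg (by positivity) (hε k).le)
        _ = ((M : ℝ)⁻¹) ^ 2 * (2 * (Multiset.card L : ℝ)) * (ε k * (ε k)⁻¹) := by ring
        _ = ((M : ℝ)⁻¹) ^ 2 * (2 * (Multiset.card L : ℝ)) := by
            rw [mul_inv_cancel₀ (hε k).ne', mul_one]
    push_cast
    have : 0 ≤ ((M : ℝ)⁻¹) ^ 2 := by positivity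
    nlinarith [ih', e5]

include hK hp hx hε hsum hzne hd in
theorem wq_estimate (M : ℕ) (hM : 0 < M) (n : ℕ) (hMn : ((n : ℝ) + 1) * (M : ℝ)⁻¹ ≤ ε n)
    (L L' : Multiset ℕ) (hL : Multiset.card L ≤ n) (hL' : Multiset.card L' ≤ n)
    (hLn : ∀ k ∈ L, k < n) (hLn' : ∀ k ∈ L', k < n) :
    ‖(L.map fun k => ε k • wq M (fun k => ε k • (x k - p)) ε z n k p).sum
      - (L'.map fun k => ε k • wq M (fun k => ε k • (x k - p)) ε z n k p).sum‖
      ≤ ‖(L.map fun k => ε k • (x k - p)).sum - (L'.map fun k => ε k • (x k - p)).sum‖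
        + (M : ℝ)⁻¹ * ((Multiset.card L : ℝ) ^ 2 + (Multiset.card L' : ℝ) ^ 2) := by
  have h1 := avg_path hK hzne hp hx hd hε hsum M hM n hMn L hL hLn
  have h2 := avg_path hK hzne hp hx hd hε hsum M hM n hMn L' hL' hLn'
  have h3 := avg_nonexp hK hzne hp hx hε hsum M hM n hMn L L' hL hL'
  have hM' : (0 : ℝ) < M := by exact_mod_cast hM
  set u : ℕ → Y := fun k => ε k • (x k - p) with hu
  set W : Y := (L.map fun k => ε k • wq M u ε z n k p).sum with hW
  set W' : Y := (L'.map fun k => ε k • wq M u ε z n k p).sum with hW'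
  set Z := avg M u n z (p + (M : ℝ)⁻¹ • (L.map u).sum) with hZ
  set Z' := avg M u n z (p + (M : ℝ)⁻¹ • (L'.map u).sum) with hZ'
  set Z0 := avg M u n z p with hZ0
  have e : (M : ℝ)⁻¹ • (W - W') = (Z - Z') - (Z - Z0 - (M : ℝ)⁻¹ • W)
      + (Z' - Z0 - (M : ℝ)⁻¹ • W') := by
    rw [smul_sub]; abel
  have h4 : (M : ℝ)⁻¹ * ‖W - W'‖ ≤ (M : ℝ)⁻¹ * ‖(L.map u).sum - (L'.map u).sum‖
      + ((M : ℝ)⁻¹) ^ 2 * (Multiset.card L : ℝ) ^ 2
      + ((M : ℝ)⁻¹) ^ 2 * (Multiset.card L' : ℝ) ^ 2 := by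
    have : (M : ℝ)⁻¹ * ‖W - W'‖ = ‖(M : ℝ)⁻¹ • (W - W')‖ := by
      rw [norm_smul, Real.norm_of_nonneg (by positivity)]
    rw [this, e]
    refine (norm_add_le _ _).trans ?_
    have := norm_sub_le (Z - Z') (Z - Z0 - (M : ℝ)⁻¹ • W)
    linarith
  have h5 : (M : ℝ)⁻¹ * ‖W - W'‖ ≤ (M : ℝ)⁻¹ * (‖(L.map u).sum - (L'.map u).sum‖
        + (M : ℝ)⁻¹ * ((Multiset.card L : ℝ) ^ 2 + (Multiset.card L' : ℝ) ^ 2)) := by
    refine h4.trans (le_of_eq ?_)
    ring
  exact le_of_mul_le_mul_left h5 (by positivity)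

include hε in
theorem wq_mem (M : ℕ) (hM : 0 < M) (n k : ℕ) :
    wq M (fun k => ε k • (x k - p)) ε z n k p ∈ convexHull ℝ (Quot z p x ε k) := by
  unfold wq
  refine mem_avg M hM _ n _ _ (convex_convexHull ℝ _) p ?_
  intro a ha0 ha1
  refine subset_convexHull ℝ _ ?_
  have eu : ∑ j ∈ Finset.range n, a j • Function.update (fun k => ε k • (x k - p)) k 0 j
      = ∑ j ∈ Finset.range n, (Function.update a k 0 j * ε j) • (x j - p) := by
    refine Finset.sum_congr rfl fun j _ => ?_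
    by_cases hj : j = k
    · subst hj; simp
    · rw [Function.update_of_ne hj, Function.update_of_ne hj, smul_smul]
  rw [eu]
  refine ⟨_, ⟨n, fun j => Function.update a k 0 j * ε j, ?_, ?_, ?_, rfl⟩, rfl⟩
  · intro j
    by_cases hj : j = k
    · subst hj; simp
    · simp only [Function.update_of_ne hj]; exact mul_nonneg (ha0 j) (hε j).le
  · intro j
    by_cases hj : j = k
    · subst hj; simp [(hε j).le]
    · simp only [Function.update_of_ne hj]
      nlinarith [ha1 j, hε j]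
  · simp

end Main


/-! ### weak ultrafilter limits -/

section Lim

theorem exists_weak_ulim (hY : Refl Y) (U : Ultrafilter ℕ) (a : ℕ → Y) (C : ℝ)
    (h : ∀ᶠ n in (U : Filter ℕ), ‖a n‖ ≤ C) :
    ∃ y : Y, ∀ φ : Y →L[ℝ] ℝ, Tendsto (fun n => φ (a n)) U (𝓝 (φ y)) := by
  have hcomp := WeakDual.isCompact_closedBall (𝕜 := ℝ) (E := StrongDual ℝ Y) 0 C
  set b : ℕ → WeakDual ℝ (StrongDual ℝ Y) := fun n =>
    StrongDual.toWeakDual (NormedSpace.inclusionInDoubleDual ℝ Y (a n)) with hb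
  have hmem : ∀ᶠ n in (U : Filter ℕ), b n ∈ WeakDual.toStrongDual ⁻¹' Metric.closedBall 0 C := by
    filter_upwards [h] with n hn
    rw [mem_preimage, Metric.mem_closedBall]
    refine le_trans ?_ hn
    refine le_trans (le_of_eq (dist_zero_right
      (NormedSpace.inclusionInDoubleDual ℝ Y (a n)))) ?_
    exact NormedSpace.double_dual_bound ℝ Y (a n)
  have hle : ((U.map b : Ultrafilter (WeakDual ℝ (StrongDual ℝ Y))) :
      Filter (WeakDual ℝ (StrongDual ℝ Y))) ≤
      𝓟 (WeakDual.toStrongDual ⁻¹' Metric.closedBall 0 C) := by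
    rw [le_principal_iff]
    exact hmem
  obtain ⟨φ, _, hφ⟩ := hcomp.ultrafilter_le_nhds _ hle
  obtain ⟨y, hy⟩ := hY (WeakDual.toStrongDual φ)
  refine ⟨y, fun ψ => ?_⟩
  have ht : Tendsto b U (𝓝 φ) := hφ
  have h2 := ((WeakDual.eval_continuous (𝕜 := ℝ) (E := StrongDual ℝ Y) ψ).tendsto φ).comp ht
  have e : φ ψ = ψ y := by
    have := congrArg (fun F => F ψ) hy
    simpa using this.symm
  rw [e] at h2
  exact h2

theorem ulim_mem (U : Ultrafilter ℕ) (a : ℕ → Y) (y : Y)
    (h : ∀ φ : Y →L[ℝ] ℝ, Tendsto (fun n => φ (a n)) U (𝓝 (φ y))) (D : Set Y)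
    (hDc : IsClosed D) (hD : Convex ℝ D) (hm : ∀ᶠ n in (U : Filter ℕ), a n ∈ D) : y ∈ D := by
  by_contra hy
  obtain ⟨f, u, h1, h2⟩ := geometric_hahn_banach_point_closed hD hDc hy
  have h3 : ∀ᶠ n in (U : Filter ℕ), f (a n) < u := (h f).eventually_lt_const h1
  obtain ⟨n, hn1, hn2⟩ := (hm.and h3).exists
  exact lt_asymm hn2 (h2 _ hn1)

end Lim


/-! ### assembly -/

section Final

theorem tendsto_multiset {U : Ultrafilter ℕ} {a : ℕ → ℕ → Y} {w : ℕ → Y} {ε : ℕ → ℝ}
    (h : ∀ k, ∀ φ : Y →L[ℝ] ℝ, Tendsto (fun n => φ (a n k)) U (𝓝 (φ (w k))))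
    (φ : Y →L[ℝ] ℝ) (L : Multiset ℕ) :
    Tendsto (fun n => φ ((L.map fun k => ε k • a n k).sum)) U
      (𝓝 (φ ((L.map fun k => ε k • w k).sum))) := by
  induction L using Multiset.induction with
  | empty => simp
  | cons k L ih =>
    simp only [Multiset.map_cons, Multiset.sum_cons, map_add, map_smul]
    exact ((h k φ).const_smul (ε k)).add ih

theorem grad (hY : Refl Y) (K : Set Y) (hK : Convex ℝ K)
    (hdiam : ∀ x ∈ K, ∀ y ∈ K, ‖x - y‖ ≤ 1) (p : Y) (hp : p ∈ K) (x : ℕ → Y) (hx : ∀ k, x k ∈ K)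
    (ε : ℕ → ℝ) (hε : ∀ k, 0 < ε k)
    (hsum : ∀ n, ∑ j ∈ Finset.range n, ε j ≤ 1) (z : Y → Y)
    (hzne : ∀ a ∈ K, ∀ b ∈ K, ‖z a - z b‖ ≤ ‖a - b‖) [CompleteSpace Y]
    (hdense : (Submodule.span ℝ (Set.range (fun k => x k - p))).topologicalClosure = ⊤) :
    ∃ S : Y →L[ℝ] Y, ‖S‖ ≤ 1 ∧ ∀ k, S (x k - p) ∈ closure (convexHull ℝ (Quot z p x ε k)) := by
  classical
  have hd : ∀ k, ‖x k - p‖ ≤ 1 := fun k => hdiam _ (hx k) _ hp
  have hε1 := eps_le_one hε hsum
  -- mesh sizes
  have hMex : ∀ n : ℕ, ∃ M : ℕ, 0 < M ∧ ((n : ℝ) + 1) * (M : ℝ)⁻¹ ≤ ε n := by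
    intro n
    obtain ⟨M, hM⟩ := exists_nat_gt (((n : ℝ) + 1) / ε n)
    have h1 : (0 : ℝ) < M := lt_of_le_of_lt (by have := hε n; positivity) hM
    refine ⟨M, by exact_mod_cast h1, ?_⟩
    rw [div_lt_iff₀ (hε n)] at hM
    rw [← div_eq_mul_inv, div_le_iff₀ h1]
    linarith
  choose M hM0 hM1 using hMex
  set u : ℕ → Y := fun k => ε k • (x k - p) with hu
  set a : ℕ → ℕ → Y := fun n k => wq (M n) u ε z n k p with ha
  set U : Ultrafilter ℕ := Filter.hyperfilter ℕ with hU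
  have hUat : (U : Filter ℕ) ≤ atTop := by
    rw [← Nat.cofinite_eq_atTop]; exact Filter.hyperfilter_le_cofinite
  -- membership of the finite stage vectors
  have hamem : ∀ n k, a n k ∈ convexHull ℝ (Quot z p x ε k) := fun n k =>
    wq_mem hε (M n) (hM0 n) n k
  -- estimate of the finite stage vectors
  have hest : ∀ n, ∀ L L' : Multiset ℕ, Multiset.card L ≤ n → Multiset.card L' ≤ n →
      (∀ k ∈ L, k < n) → (∀ k ∈ L', k < n) →
      ‖(L.map fun k => ε k • a n k).sum - (L'.map fun k => ε k • a n k).sum‖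
      ≤ ‖(L.map u).sum - (L'.map u).sum‖
        + (M n : ℝ)⁻¹ * ((Multiset.card L : ℝ) ^ 2 + (Multiset.card L' : ℝ) ^ 2) :=
    fun n L L' h1 h2 h3 h4 =>
      wq_estimate hK hzne hp hx hd hε hsum (M n) (hM0 n) n (hM1 n) L L' h1 h2 h3 h4
  have hMinv : Tendsto (fun n => (M n : ℝ)⁻¹) atTop (𝓝 0) := by
    refine squeeze_zero (fun n => by positivity) (g := fun n : ℕ => 1 / ((n : ℝ) + 1)) ?_
      tendsto_one_div_add_atTop_nhds_zero_nat
    intro n
    have h1 : ((n : ℝ) + 1) * (M n : ℝ)⁻¹ ≤ 1 := (hM1 n).trans (hε1 n)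
    rw [le_div_iff₀ (by positivity)]
    linarith
  -- boundedness
  have hbd : ∀ k, ∀ᶠ n in (U : Filter ℕ), ‖a n k‖ ≤ (ε k)⁻¹ * (1 + 1) := by
    intro k
    have h1 : ∀ᶠ n in atTop, (M n : ℝ)⁻¹ < 1 := hMinv.eventually_lt_const zero_lt_one
    filter_upwards [hUat (eventually_gt_atTop k), hUat h1] with n hn hn1
    have h2 := hest n {k} 0 (by rw [Multiset.card_singleton]; omega) (by simp)
      (by simpa using hn) (by simp)
    simp only [Multiset.map_singleton, Multiset.sum_singleton, Multiset.map_zero,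
      Multiset.sum_zero, sub_zero, Multiset.card_singleton, Multiset.card_zero] at h2
    rw [norm_smul, Real.norm_of_nonneg (hε k).le] at h2
    have h3 : ‖u k‖ ≤ 1 := by
      rw [hu, norm_smul, Real.norm_of_nonneg (hε k).le]
      have := mul_le_mul (hε1 k) (hd k) (norm_nonneg _) zero_le_one
      linarith
    have h4 : ε k * ‖a n k‖ ≤ 1 + 1 := by
      refine h2.trans ?_
      norm_num
      linarith
    rw [le_inv_mul_iff₀ (hε k)]
    exact h4
  choose w hw using fun k => exists_weak_ulim hY U (fun n => a n k) _ (hbd k)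
  have hwmem : ∀ k, w k ∈ closure (convexHull ℝ (Quot z p x ε k)) := by
    intro k
    refine ulim_mem U (fun n => a n k) (w k) (hw k) _ isClosed_closure
      (convex_convexHull ℝ _).closure ?_
    exact Eventually.of_forall fun n => subset_closure (hamem n k)
  -- inequality for multisets
  have hineq : ∀ L L' : Multiset ℕ,
      ‖(L.map fun k => ε k • w k).sum - (L'.map fun k => ε k • w k).sum‖
        ≤ ‖(L.map u).sum - (L'.map u).sum‖ := by
    intro L L'
    refine le_of_forall_pos_le_add fun η hη => ?_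
    rw [← mem_closedBall_zero_iff]
    refine ulim_mem U (fun n => (L.map fun k => ε k • a n k).sum
      - (L'.map fun k => ε k • a n k).sum) _ ?_ _ Metric.isClosed_closedBall
      (convex_closedBall 0 _) ?_
    · intro φ
      simp only [map_sub]
      exact (tendsto_multiset hw φ L).sub (tendsto_multiset hw φ L')
    · have h0 : Tendsto (fun n => (M n : ℝ)⁻¹ *
          ((Multiset.card L : ℝ) ^ 2 + (Multiset.card L' : ℝ) ^ 2)) atTop (𝓝 0) := by
        simpa using hMinv.mul_const ((Multiset.card L : ℝ) ^ 2 + (Multiset.card L' : ℝ) ^ 2)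
      have h1 : ∀ᶠ n in atTop, ∀ k ∈ L, k < n := by
        obtain ⟨B, hB⟩ : ∃ B : ℕ, ∀ k ∈ L, k ≤ B :=
          ⟨L.sum, fun k hk => Multiset.single_le_sum (fun _ _ => Nat.zero_le _) k hk⟩
        filter_upwards [eventually_gt_atTop B] with n hn k hk
        exact lt_of_le_of_lt (hB k hk) hn
      have h2 : ∀ᶠ n in atTop, ∀ k ∈ L', k < n := by
        obtain ⟨B, hB⟩ : ∃ B : ℕ, ∀ k ∈ L', k ≤ B :=
          ⟨L'.sum, fun k hk => Multiset.single_le_sum (fun _ _ => Nat.zero_le _) k hk⟩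
        filter_upwards [eventually_gt_atTop B] with n hn k hk
        exact lt_of_le_of_lt (hB k hk) hn
      filter_upwards [hUat h1, hUat h2, hUat (eventually_ge_atTop (Multiset.card L)),
        hUat (eventually_ge_atTop (Multiset.card L')), hUat (h0.eventually_lt_const hη)]
        with n n1 n2 n3 n4 n5
      rw [mem_closedBall_zero_iff]
      refine (hest n L L' n3 n4 n1 n2).trans ?_
      linarith
  -- inequality for natural coefficients
  have hnat : ∀ (s : Finset ℕ) (m m' : ℕ → ℕ),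
      ‖∑ k ∈ s, ((m k : ℝ) - (m' k : ℝ)) • (ε k • w k)‖
        ≤ ‖∑ k ∈ s, ((m k : ℝ) - (m' k : ℝ)) • u k‖ := by
    intro s m m'
    have key : ∀ (f : ℕ → Y) (m : ℕ → ℕ),
        ((∑ k ∈ s, m k • ({k} : Multiset ℕ)).map f).sum = ∑ k ∈ s, (m k : ℝ) • f k := by
      intro f m
      have h1 : ((∑ k ∈ s, m k • ({k} : Multiset ℕ)).map f).sum
          = (Multiset.sumAddMonoidHom.comp (Multiset.mapAddMonoidHom f))
              (∑ k ∈ s, m k • ({k} : Multiset ℕ)) := rfl
      rw [h1, map_sum]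
      refine Finset.sum_congr rfl fun k _ => ?_
      rw [map_nsmul, Nat.cast_smul_eq_nsmul]
      congr 1
      simp
    have h := hineq (∑ k ∈ s, m k • ({k} : Multiset ℕ)) (∑ k ∈ s, m' k • ({k} : Multiset ℕ))
    rw [key, key, key, key, ← Finset.sum_sub_distrib, ← Finset.sum_sub_distrib] at h
    simpa only [sub_smul] using h
  -- inequality for real coefficients
  have hreal : ∀ (s : Finset ℕ) (c : ℕ → ℝ),
      ‖∑ k ∈ s, c k • (ε k • w k)‖ ≤ ‖∑ k ∈ s, c k • u k‖ := by
    intro s c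
    have ht : ∀ f : ℕ → Y, Tendsto (fun R : ℕ => ∑ k ∈ s,
        (((⌊(max (c k) 0) * (R : ℝ)⌋₊ : ℝ) - (⌊(max (-c k) 0) * (R : ℝ)⌋₊ : ℝ)) / (R : ℝ)) • f k)
        atTop (𝓝 (∑ k ∈ s, c k • f k)) := by
      intro f
      refine tendsto_finsetSum _ fun k _ => ?_
      refine Tendsto.smul_const ?_ _
      have h1 := (tendsto_nat_floor_mul_div_atTop (R := ℝ) (le_max_right (c k) 0)).comp
        tendsto_natCast_atTop_atTop
      have h2 := (tendsto_nat_floor_mul_div_atTop (R := ℝ) (le_max_right (-c k) 0)).comp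
        tendsto_natCast_atTop_atTop
      have h3 := h1.sub h2
      have e : max (c k) 0 - max (-c k) 0 = c k := by
        rcases le_total (c k) 0 with h | h
        · rw [max_eq_right h, max_eq_left (by linarith)]; ring
        · rw [max_eq_left h, max_eq_right (by linarith)]; ring
      rw [e] at h3
      refine h3.congr fun R => ?_
      simp only [Function.comp]
      rw [sub_div]
    refine le_of_tendsto_of_tendsto' (ht _).norm (ht _).norm fun R => ?_
    have h := hnat s (fun k => ⌊(max (c k) 0) * (R : ℝ)⌋₊) (fun k => ⌊(max (-c k) 0) * (R : ℝ)⌋₊)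
    have e : ∀ f : ℕ → Y, ∑ k ∈ s,
        (((⌊(max (c k) 0) * (R : ℝ)⌋₊ : ℝ) - (⌊(max (-c k) 0) * (R : ℝ)⌋₊ : ℝ)) / (R : ℝ)) • f k
        = (R : ℝ)⁻¹ • ∑ k ∈ s,
          ((⌊(max (c k) 0) * (R : ℝ)⌋₊ : ℝ) - (⌊(max (-c k) 0) * (R : ℝ)⌋₊ : ℝ)) • f k := by
      intro f
      rw [Finset.smul_sum]
      refine Finset.sum_congr rfl fun k _ => ?_
      rw [smul_smul, div_eq_inv_mul]
    rw [e, e, norm_smul, norm_smul]
    exact mul_le_mul_of_nonneg_left h (norm_nonneg _)
  -- extension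
  set e : (ℕ →₀ ℝ) →ₗ[ℝ] Y := Finsupp.linearCombination ℝ (fun k => x k - p) with he
  set f : (ℕ →₀ ℝ) →ₗ[ℝ] Y := Finsupp.linearCombination ℝ w with hf
  have hde : DenseRange e := by
    have h1 : (LinearMap.range e) = Submodule.span ℝ (Set.range (fun k => x k - p)) :=
      Finsupp.range_linearCombination ℝ
    have h2 : Dense ((Submodule.span ℝ (Set.range (fun k => x k - p)) : Submodule ℝ Y) : Set Y) :=
      Submodule.dense_iff_topologicalClosure_eq_top.2 hdense
    rw [← h1] at h2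
    have h3 : ((LinearMap.range e : Submodule ℝ Y) : Set Y) = Set.range e := by
      ext y; simp
    rw [h3] at h2
    exact h2
  have hnorm : ∀ c, ‖f c‖ ≤ 1 * ‖e c‖ := by
    intro c
    have h := hreal c.support (fun k => c k * (ε k)⁻¹)
    have e1 : ∑ k ∈ c.support, (c k * (ε k)⁻¹) • (ε k • w k) = f c := by
      rw [hf, Finsupp.linearCombination_apply, Finsupp.sum]
      refine Finset.sum_congr rfl fun k _ => ?_
      rw [smul_smul, mul_assoc, inv_mul_cancel₀ (hε k).ne', mul_one]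
    have e2 : ∑ k ∈ c.support, (c k * (ε k)⁻¹) • u k = e c := by
      rw [he, Finsupp.linearCombination_apply, Finsupp.sum]
      refine Finset.sum_congr rfl fun k _ => ?_
      rw [hu, smul_smul, mul_assoc, inv_mul_cancel₀ (hε k).ne', mul_one]
    rw [e1, e2] at h
    rwa [one_mul]
  refine ⟨f.extendOfNorm e, ?_, ?_⟩
  · refine ContinuousLinearMap.opNorm_le_bound _ zero_le_one fun y => ?_
    exact LinearMap.norm_extendOfNorm_apply_le hde 1 hnorm y
  · intro k
    have h1 : f.extendOfNorm e (e (Finsupp.single k 1)) = f (Finsupp.single k 1) :=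
      LinearMap.extendOfNorm_eq hde ⟨1, hnorm⟩ _
    have h2 : e (Finsupp.single k 1) = x k - p := by simp [he]
    have h3 : f (Finsupp.single k 1) = w k := by simp [hf]
    rw [h2, h3] at h1
    rw [h1]
    exact hwmem k

end Final

end Crest.Agent.R108.Avg

namespace Crest.Agent.R108

universe u

variable {Y : Type u} [NormedAddCommGroup Y] [NormedSpace ℝ Y] [CompleteSpace Y]

set_option linter.unusedVariables false in
/-- E2 (Lemma Grad). -/
theorem grad (hY : Refl Y) (K : Set Y) (hKc : IsClosed K) (hK : Convex ℝ K)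
    (hdiam : ∀ x ∈ K, ∀ y ∈ K, ‖x - y‖ ≤ 1) (p : Y) (hp : p ∈ K) (x : ℕ → Y) (hx : ∀ k, x k ∈ K)
    (ε : ℕ → ℝ) (hε : ∀ k, 0 < ε k) (hdy : ∀ k, ∃ a s : ℕ, ε k = (a : ℝ) / 2 ^ s)
    (hsum : ∀ n, ∑ j ∈ Finset.range n, ε j ≤ 1) (z : Y → Y) (hz : MapsTo z K K) (hzne : ∀ a ∈ K, ∀ b ∈ K, ‖z a - z b‖ ≤ ‖a - b‖)
    (hdense : (Submodule.span ℝ (Set.range (fun k => x k - p))).topologicalClosure = ⊤) :
    ∃ S : Y →L[ℝ] Y, ‖S‖ ≤ 1 ∧ ∀ k, S (x k - p) ∈ closure (convexHull ℝ (Quot z p x ε k)) :=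
  Avg.grad hY K hK hdiam p hp x hx ε hε hsum z hzne hdense

end Crest.Agent.R108
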