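import Crest.Agent.R108.LemHBody
import Crest.Agent.R108.Grad

/-! Row 108 (S0142): Lemma H (heredity).  helper261 -/

set_option autoImplicit false

open Filter Topology Set

namespace Crest.Agent.R108

universe u

variable {Y : Type u} [NormedAddCommGroup Y] [NormedSpace ℝ Y] [CompleteSpace Y]

/-- E3 (Lemma H, heredity). -/
theorem lemH (hY : Refl Y) (D : Data Y) (g : ℕ → (Y →L[ℝ] ℝ)) (hg : Norming D g)
    (A : Y →L[ℝ] Y) (hA : InA D g A) (m : ℕ) (x₀ : Y) (hx₀ : x₀ ∈ D.K) (ε : ℝ) (hε : 0 < ε)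
    (hε2 : ε < 1 / 2) :
    ∃ S : Y →L[ℝ] Y, InA D g (A.comp S) ∧
      ‖S (x₀ - D.p) - (D.R m x₀ - D.R m D.p)‖ ≤ 8 * ε :=
  lemH_of_grad (fun K hKc hK hdiam p hp x hx ε hε hdy hsum z hz hzne hdense =>
    grad hY K hKc hK hdiam p hp x hx ε hε hdy hsum z hz hzne hdense)
    D g hg A hA m x₀ hx₀ ε hε hε2

end Crest.Agent.R108
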