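import Crest.Agent.R108.Weak1

/-!
# R108 (S0142): point of continuity property (W4)
-/

set_option autoImplicit false

open Filter Topology Set

namespace Crest.Agent.R108

universe u

variable {X : Type u} [NormedAddCommGroup X] [NormedSpace ℝ X] [CompleteSpace X]

namespace Pcp

omit [CompleteSpace X] in
lemma wtendsto_toWeakSpace {u : ℕ → X} {v : X} (h : WTendsto u v) :
    Tendsto (fun n => toWeakSpace ℝ X (u n)) atTop (𝓝 (toWeakSpace ℝ X v)) := by
  have hB : Function.Injective (topDualPairing ℝ X).flip := by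
    intro x y hxy
    by_contra hne
    obtain ⟨f, hf⟩ := SeparatingDual.exists_separating_of_ne (R := ℝ) hne
    exact hf (DFunLike.congr_fun hxy f)
  exact (WeakBilin.tendsto_iff_forall_eval_tendsto (topDualPairing ℝ X).flip hB).2
    fun φ => h φ

end Pcp

theorem pcp [TopologicalSpace.SeparableSpace X] (hX : Refl X) (V : Set X) (hne : V.Nonempty)
    (hb : Bornology.IsBounded V)
    (h : ∀ v ∈ V, ∃ u : ℕ → X, (∀ n, u n ∈ V) ∧ WTendsto u v ∧ ∀ n, (1 / 2 : ℝ) ≤ ‖u n - v‖) :
    False := by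
  classical
  obtain ⟨v₀, hv₀⟩ := hne
  have : Nonempty X := ⟨v₀⟩
  set J := toWeakSpace ℝ X with hJ
  -- a closed ball containing `V`
  obtain ⟨r, hr⟩ := hb.subset_closedBall (0 : X)
  have hball : ∀ (c : X) (ρ : ℝ), IsCompact (J '' Metric.closedBall c ρ) := fun c ρ =>
    weak_compact hX _ Metric.isClosed_closedBall (convex_closedBall c ρ)
      Metric.isBounded_closedBall
  set C : Set (WeakSpace ℝ X) := closure (J '' V) with hC
  have hCc : IsCompact C :=
    (hball 0 r).of_isClosed_subset isClosed_closure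
      (closure_minimal (image_mono hr) (hball 0 r).isClosed)
  have : CompactSpace C := isCompact_iff_compactSpace.1 hCc
  have : Nonempty C := ⟨⟨J v₀, subset_closure ⟨v₀, hv₀, rfl⟩⟩⟩
  let d := TopologicalSpace.denseSeq X
  let F : ℕ → Set C := fun j => (Subtype.val) ⁻¹' (J '' Metric.closedBall (d j) (1 / 8))
  have hF : ∀ j, IsClosed (F j) := fun j => (hball _ _).isClosed.preimage continuous_subtype_val
  have hU : ⋃ j, F j = univ := by
    refine eq_univ_of_forall fun c => ?_
    obtain ⟨x, hx⟩ := (toWeakSpace ℝ X).surjective c.1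
    obtain ⟨j, hj⟩ := (TopologicalSpace.denseRange_denseSeq X).exists_dist_lt x
      (show (0 : ℝ) < 1 / 8 by norm_num)
    exact mem_iUnion.2 ⟨j, x, Metric.mem_closedBall.2 hj.le, hx⟩
  obtain ⟨j, ⟨c, hc⟩⟩ := nonempty_interior_of_iUnion_of_closed hF hU
  obtain ⟨O', hO'F, hO', hcO'⟩ := mem_interior.1 hc
  obtain ⟨O, hO, rfl⟩ := isOpen_induced_iff.1 hO'
  -- a point of `V` in `O`
  have hcC : (c : WeakSpace ℝ X) ∈ closure (J '' V) := c.2
  obtain ⟨w, hwO, v, hv, rfl⟩ := mem_closure_iff.1 hcC O hO hcO'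
  obtain ⟨u, huV, huv, hud⟩ := h v hv
  have key : ∀ x ∈ V, J x ∈ O → x ∈ Metric.closedBall (d j) (1 / 8) := by
    intro x hx hxO
    have : (⟨J x, subset_closure ⟨x, hx, rfl⟩⟩ : C) ∈ F j := hO'F hxO
    obtain ⟨y, hy, hyx⟩ := this
    have : y = x := (toWeakSpace ℝ X).injective hyx
    exact this ▸ hy
  have hev : ∀ᶠ n in atTop, J (u n) ∈ O :=
    (Pcp.wtendsto_toWeakSpace huv) (hO.mem_nhds hwO)
  obtain ⟨n, hn⟩ := hev.exists
  have h1 := Metric.mem_closedBall.1 (key _ (huV n) hn)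
  have h2 := Metric.mem_closedBall.1 (key v hv hwO)
  have h3 : dist (u n) v ≤ 1 / 8 + 1 / 8 :=
    (dist_triangle_right _ _ _).trans (add_le_add h1 h2)
  have h4 := hud n
  rw [← dist_eq_norm] at h4
  linarith

end Crest.Agent.R108
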