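import Crest.Agent.R108.Defs

/-!
# R108 (S0142): D1-D5
-/

set_option autoImplicit false
set_option linter.unusedSectionVars false

open Filter Topology Set

namespace Crest.Agent.R108

universe u

variable {Y : Type u} [NormedAddCommGroup Y] [NormedSpace ℝ Y] [CompleteSpace Y]

namespace Unif

theorem sum_w (n : ℕ) : ∑ k ∈ Finset.range n, (1 / 2 : ℝ) ^ (k + 1) + (1 / 2) ^ n = 1 := by
  induction n with
  | zero => simp
  | succ n ih =>
    rw [Finset.sum_range_succ, pow_succ]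
    linarith

theorem hasSum_w : HasSum (fun k : ℕ => (1 / 2 : ℝ) ^ (k + 1)) 1 := by
  have h := (hasSum_geometric_two).mul_left (1 / 2 : ℝ)
  have h1 : (fun k : ℕ => (1 / 2 : ℝ) * (1 / 2) ^ k) = fun k : ℕ => (1 / 2 : ℝ) ^ (k + 1) := by
    funext k
    rw [pow_succ, mul_comm]
  rw [h1] at h
  norm_num at h ⊢
  exact h

theorem norm_le (D : Data Y) (k : ℕ) : ‖D.d k‖ ≤ ‖D.d 0‖ + 1 := by
  have h := D.diam_le _ (D.hd k) _ (D.hd 0)
  have h2 : ‖D.d k‖ ≤ ‖D.d k - D.d 0‖ + ‖D.d 0‖ := by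
    simpa using norm_add_le (D.d k - D.d 0) (D.d 0)
  linarith

theorem summable_w : Summable (fun k : ℕ => (1 / 2 : ℝ) ^ (k + 1)) := hasSum_w.summable

theorem summable_d (D : Data Y) : Summable (fun k : ℕ => ((1 / 2 : ℝ) ^ (k + 1)) • D.d k) := by
  refine Summable.of_norm_bounded (g := fun k : ℕ => (1 / 2 : ℝ) ^ (k + 1) * (‖D.d 0‖ + 1))
    (summable_w.mul_right _) fun k => ?_
  rw [norm_smul, Real.norm_of_nonneg (by positivity)]
  exact mul_le_mul_of_nonneg_left (norm_le D k) (by positivity)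

theorem hasSum_qb (D : Data Y) : HasSum (fun k : ℕ => ((1 / 2 : ℝ) ^ (k + 1)) • D.d k) D.qb :=
  (summable_d D).hasSum

theorem partial_mem (D : Data Y) (n : ℕ) :
    ∑ k ∈ Finset.range n, ((1 / 2 : ℝ) ^ (k + 1)) • D.d k + ((1 / 2 : ℝ) ^ n) • D.d 0 ∈ D.K := by
  have h := D.convex.sum_mem (t := Finset.range (n + 1))
    (w := fun k => if k = n then (1 / 2 : ℝ) ^ n else (1 / 2 : ℝ) ^ (k + 1))
    (z := fun k => if k = n then D.d 0 else D.d k) (fun k _ => by split_ifs <;> positivity)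
    (by
      rw [Finset.sum_range_succ, if_pos rfl]
      refine Eq.trans ?_ (sum_w n)
      refine congrArg (· + (1 / 2 : ℝ) ^ n) ?_
      refine Finset.sum_congr rfl fun k hk => ?_
      rw [if_neg (Finset.mem_range.1 hk).ne]) (fun k _ => by
      split_ifs
      · exact D.hd 0
      · exact D.hd k)
  rw [Finset.sum_range_succ, if_pos rfl, if_pos rfl] at h
  convert h using 2
  refine Finset.sum_congr rfl fun k hk => ?_
  rw [if_neg (Finset.mem_range.1 hk).ne, if_neg (Finset.mem_range.1 hk).ne]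

/-- `k (x - qb)` as a weighted average of the `k (x - d j)`. -/
theorem hasSum_k (D : Data Y) (k : Y →L[ℝ] ℝ) (x : Y) :
    HasSum (fun j : ℕ => (1 / 2 : ℝ) ^ (j + 1) * (1 - k (x - D.d j))) (1 - k (x - D.qb)) := by
  have h1 := (hasSum_w).mul_right (1 - k x)
  have h2 := (hasSum_qb D).mapL k
  have h3 := h1.add h2
  have e1 : 1 * (1 - k x) + k D.qb = 1 - k (x - D.qb) := by
    rw [map_sub]
    ring
  rw [e1] at h3
  have e2 : (fun j : ℕ => (1 / 2 : ℝ) ^ (j + 1) * (1 - k (x - D.d j))) =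
      fun b : ℕ => (1 / 2 : ℝ) ^ (b + 1) * (1 - k x) + k ((1 / 2 : ℝ) ^ (b + 1) • D.d b) := by
    funext j
    rw [map_smul, smul_eq_mul, map_sub]
    ring
  rw [e2]
  exact h3

/-- each single term is controlled -/
theorem single (D : Data Y) (k : Y →L[ℝ] ℝ) (hk : ‖k‖ ≤ 1) (x : Y) (hx : x ∈ D.K) (i : ℕ) :
    (1 / 2 : ℝ) ^ (i + 1) * (1 - k (x - D.d i)) ≤ 1 - k (x - D.qb) := by
  have hnn : ∀ j, 0 ≤ (1 / 2 : ℝ) ^ (j + 1) * (1 - k (x - D.d j)) := by
    intro j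
    refine mul_nonneg (by positivity) ?_
    have h1 : k (x - D.d j) ≤ ‖k (x - D.d j)‖ := Real.le_norm_self _
    have h2 := k.le_opNorm (x - D.d j)
    have h3 := D.diam_le x hx _ (D.hd j)
    have h4 : ‖k‖ * ‖x - D.d j‖ ≤ 1 * 1 := mul_le_mul hk h3 (norm_nonneg _) zero_le_one
    linarith
  exact le_hasSum (hasSum_k D k x) i fun j _ => hnn j

end Unif

open Unif

/-- D1. -/
theorem qb_mem (D : Data Y) : D.qb ∈ D.K := by
  have h1 := (hasSum_qb D).tendsto_sum_nat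
  have h2 : Tendsto (fun n : ℕ => ((1 / 2 : ℝ) ^ n) • D.d 0) atTop (𝓝 ((0 : ℝ) • D.d 0)) :=
    (tendsto_pow_atTop_nhds_zero_of_lt_one (by norm_num) (by norm_num)).smul_const _
  have h3 := h1.add h2
  rw [zero_smul, add_zero] at h3
  exact D.closed.mem_of_tendsto h3 (Eventually.of_forall fun n => partial_mem D n)

/-- D2. Lemma U. -/
theorem lemU (D : Data Y) (C : Set Y) (hC : IsCompact C) (hCK : C ⊆ D.K) (ε : ℝ) (hε : 0 < ε) :
    ∃ η : ℝ, 0 < η ∧ ∀ (k : Y →L[ℝ] ℝ), ‖k‖ ≤ 1 → ∀ x ∈ D.K, 1 - η < k (x - D.qb) →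
      ∀ q ∈ C, 1 - ε < k (x - q) := by
  obtain ⟨t, ht⟩ := hC.elim_finite_subcover (fun i : ℕ => Metric.ball (D.d i) (ε / 2))
    (fun i => Metric.isOpen_ball) (by
      intro q hq
      have h1 := D.hdense (hCK hq)
      rw [Metric.mem_closure_iff] at h1
      obtain ⟨_, ⟨i, rfl⟩, h2⟩ := h1 (ε / 2) (by linarith)
      exact mem_iUnion.2 ⟨i, h2⟩)
  refine ⟨(1 / 2 : ℝ) ^ (t.sup id + 1) * (ε / 2), by positivity, ?_⟩
  intro k hk x hx h q hq
  obtain ⟨i, hi⟩ := mem_iUnion.1 (ht hq)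
  obtain ⟨hit, hi2⟩ := mem_iUnion.1 hi
  have hle : i ≤ t.sup id := Finset.le_sup (f := id) hit
  have h1 := single D k hk x hx i
  have h2 : (1 / 2 : ℝ) ^ (t.sup id + 1) ≤ (1 / 2 : ℝ) ^ (i + 1) :=
    pow_le_pow_of_le_one (by norm_num) (by norm_num) (by omega)
  have h3 : (1 / 2 : ℝ) ^ (i + 1) * (1 - k (x - D.d i)) < (1 / 2 : ℝ) ^ (i + 1) * (ε / 2) := by
    have h4 : (1 / 2 : ℝ) ^ (t.sup id + 1) * (ε / 2) ≤ (1 / 2 : ℝ) ^ (i + 1) * (ε / 2) :=
      mul_le_mul_of_nonneg_right h2 (by linarith)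
    linarith
  have h5 : 1 - k (x - D.d i) < ε / 2 := lt_of_mul_lt_mul_left h3 (by positivity)
  have h6 : k (x - q) = k (x - D.d i) - k (q - D.d i) := by
    rw [← map_sub]
    congr 1
    abel
  have h7 : k (q - D.d i) < ε / 2 := by
    calc k (q - D.d i) ≤ ‖k (q - D.d i)‖ := Real.le_norm_self _
      _ ≤ ‖k‖ * ‖q - D.d i‖ := k.le_opNorm _
      _ ≤ 1 * ‖q - D.d i‖ := mul_le_mul_of_nonneg_right hk (norm_nonneg _)
      _ = dist q (D.d i) := by rw [one_mul, dist_eq_norm]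
      _ < ε / 2 := hi2
  rw [h6]
  linarith

/-- D3. -/
theorem exists_norming (D : Data Y) : ∃ g : ℕ → (Y →L[ℝ] ℝ), Norming D g := by
  choose g hg using fun n : ℕ => exists_dual_vector'' ℝ (D.f n - D.qb)
  exact ⟨g, fun n => ⟨(hg n).1, (hg n).2⟩⟩

/-- D4. -/
theorem inA_id (D : Data Y) (g : ℕ → (Y →L[ℝ] ℝ)) (hg : Norming D g) :
    InA D g (ContinuousLinearMap.id ℝ Y) := by
  refine ⟨ContinuousLinearMap.norm_id_le, fun η hη n₀ => ?_⟩
  obtain ⟨n, hn, h⟩ := D.far D.qb (qb_mem D) η hη n₀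
  refine ⟨n, hn, ?_⟩
  rw [ContinuousLinearMap.id_apply, (hg n).2]
  exact h

/-- D5. along indices where `g n (A (f n - qb))` is close to one, `g n (A y)` is small. -/
theorem small_of_near (D : Data Y) (y : Y) (ε : ℝ) (hε : 0 < ε) :
    ∃ η : ℝ, 0 < η ∧ ∀ (k : Y →L[ℝ] ℝ), ‖k‖ ≤ 1 → ∀ x ∈ D.K, 1 - η < k (x - D.qb) →
      |k y| < ε := by
  -- first on the span
  have key : ∀ y ∈ Submodule.span ℝ {v : Y | ∃ x ∈ D.K, ∃ y ∈ D.K, v = x - y},
      ∀ ε : ℝ, 0 < ε → ∃ η : ℝ, 0 < η ∧ ∀ (k : Y →L[ℝ] ℝ), ‖k‖ ≤ 1 → ∀ x ∈ D.K,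
        1 - η < k (x - D.qb) → |k y| < ε := by
    intro y hy
    induction hy using Submodule.span_induction with
    | mem v hv =>
      obtain ⟨a, ha, b, hb, rfl⟩ := hv
      intro ε hε
      obtain ⟨η, hη, h⟩ := lemU D {a, b} (by simp [Set.Finite.isCompact]) (by
        rintro q (rfl | rfl) <;> assumption) ε hε
      refine ⟨η, hη, fun k hk x hx hx2 => ?_⟩
      have h1 := h k hk x hx hx2 a (by simp)
      have h2 := h k hk x hx hx2 b (by simp)
      have hle : ∀ q ∈ D.K, k (x - q) ≤ 1 := by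
        intro q hq
        have h1 : k (x - q) ≤ ‖k (x - q)‖ := Real.le_norm_self _
        have h2 := k.le_opNorm (x - q)
        have h3 := D.diam_le x hx q hq
        have h4 : ‖k‖ * ‖x - q‖ ≤ 1 * 1 := mul_le_mul hk h3 (norm_nonneg _) zero_le_one
        linarith
      have h3 := hle a ha
      have h4 := hle b hb
      rw [map_sub] at h1 h2 h3 h4 ⊢
      rw [abs_lt]
      constructor <;> linarith
    | zero =>
      intro ε hε
      exact ⟨1, one_pos, fun k _ x _ _ => by simpa using hε⟩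
    | add a b _ _ iha ihb =>
      intro ε hε
      obtain ⟨η₁, hη₁, h₁⟩ := iha (ε / 2) (by linarith)
      obtain ⟨η₂, hη₂, h₂⟩ := ihb (ε / 2) (by linarith)
      refine ⟨min η₁ η₂, lt_min hη₁ hη₂, fun k hk x hx hx2 => ?_⟩
      have e1 := h₁ k hk x hx (by linarith [min_le_left η₁ η₂])
      have e2 := h₂ k hk x hx (by linarith [min_le_right η₁ η₂])
      rw [map_add]
      linarith [abs_add_le (k a) (k b)]
    | smul c a _ ih =>
      intro ε hε
      obtain ⟨η, hη, h⟩ := ih (ε / (|c| + 1)) (by positivity)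
      refine ⟨η, hη, fun k hk x hx hx2 => ?_⟩
      have e1 := h k hk x hx hx2
      rw [map_smul, smul_eq_mul, abs_mul]
      have h3 : (|c| + 1) * |k a| < ε := by
        rw [lt_div_iff₀ (by positivity)] at e1
        linarith
      nlinarith [abs_nonneg (k a), abs_nonneg c]
  have hy : y ∈ closure (Submodule.span ℝ {v : Y | ∃ x ∈ D.K, ∃ y ∈ D.K, v = x - y} : Set Y) := by
    rw [← Submodule.topologicalClosure_coe, D.dense_span]
    trivial
  rw [Metric.mem_closure_iff] at hy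
  obtain ⟨y', hy', hd⟩ := hy (ε / 2) (by linarith)
  obtain ⟨η, hη, h⟩ := key y' hy' (ε / 2) (by linarith)
  refine ⟨η, hη, fun k hk x hx hx2 => ?_⟩
  have h1 := h k hk x hx hx2
  have h2 : |k (y - y')| < ε / 2 := by
    calc |k (y - y')| = ‖k (y - y')‖ := (Real.norm_eq_abs _).symm
      _ ≤ ‖k‖ * ‖y - y'‖ := k.le_opNorm _
      _ ≤ 1 * ‖y - y'‖ := mul_le_mul_of_nonneg_right hk (norm_nonneg _)
      _ = dist y y' := by rw [one_mul, dist_eq_norm]
      _ < ε / 2 := hd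
  have h3 : k y = k y' + k (y - y') := by
    rw [map_sub]
    ring
  rw [h3]
  linarith [abs_add_le (k y') (k (y - y'))]

end Crest.Agent.R108
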