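import Crest.Agent.R108.Defs
import Crest.Agent.R108.Pcp
import Crest.Agent.R108.Unif
import Crest.Agent.R108.LemH

/-!
# R108 (S0142): the core contradiction (E4).
-/

set_option autoImplicit false

open Filter Topology Set

namespace Crest.Agent.R108

universe u

namespace Core

variable {Y : Type u} [NormedAddCommGroup Y] [NormedSpace ℝ Y] [CompleteSpace Y]

/-- the bush -/
def V (D : Data Y) (g : ℕ → (Y →L[ℝ] ℝ)) : Set Y :=
  {v | ∃ A : Y →L[ℝ] Y, InA D g A ∧ ∃ m : ℕ, ∃ s : ℝ, (s = 1 ∨ s = -1) ∧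
    v = s • A (D.f m - D.p)}

omit [CompleteSpace Y] in
theorem f_mem (D : Data Y) (n : ℕ) : D.f n ∈ D.K := D.mapsTo n D.hp

/-- one step of the bush -/
theorem step (hY : Refl Y) (D : Data Y) (g : ℕ → (Y →L[ℝ] ℝ)) (hg : Norming D g)
    (A : Y →L[ℝ] Y) (hA : InA D g A) (m : ℕ) (s : ℝ) (hs : s = 1 ∨ s = -1) (j : ℕ) :
    ∃ (n : ℕ) (u e : Y), j ≤ n ∧ u ∈ V D g ∧ (3 / 4 : ℝ) ≤ ‖A (D.f n - D.p)‖ ∧
      ‖e‖ ≤ (1 / 4 : ℝ) * (1 / ((j : ℝ) + 1)) ∧
      u = s • A (D.f m - D.p) - s • (A (D.f n - D.p) + e) := by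
  have hj : (0 : ℝ) < 1 / ((j : ℝ) + 1) := Nat.one_div_pos_of_nat
  have hj1 : 1 / ((j : ℝ) + 1) ≤ 1 := by
    rw [div_le_one (by positivity)]
    have : (0 : ℝ) ≤ j := Nat.cast_nonneg j
    linarith
  set t : ℝ := 1 / ((j : ℝ) + 1) with ht
  obtain ⟨η, hη, hη'⟩ := small_of_near D (D.p - D.qb) (1 / 8 : ℝ) (by norm_num)
  have hfix := D.fix m
  have hev : ∀ᶠ n in atTop, ‖D.R m (D.R n D.p) - D.R n D.p‖ < t / 8 :=
    hfix.eventually_lt_const (by positivity)
  obtain ⟨N, hN⟩ := eventually_atTop.1 hev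
  obtain ⟨n, hn, hgn⟩ := hA.2 (min η (1 / 8)) (lt_min hη (by norm_num)) (max j N)
  have hjn : j ≤ n := le_trans (le_max_left _ _) hn
  have hNn : N ≤ n := le_trans (le_max_right _ _) hn
  have hfn : D.f n ∈ D.K := f_mem D n
  -- the functional
  have hk : ‖(g n).comp A‖ ≤ 1 := by
    refine le_trans (ContinuousLinearMap.opNorm_comp_le _ _) ?_
    have h1 := (hg n).1
    have h2 := hA.1
    calc ‖g n‖ * ‖A‖ ≤ 1 * 1 := mul_le_mul h1 h2 (norm_nonneg _) zero_le_one
      _ = 1 := by norm_num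
  have h1 : |((g n).comp A) (D.p - D.qb)| < 1 / 8 := by
    refine hη' _ hk (D.f n) hfn ?_
    have : min η (1 / 8) ≤ η := min_le_left _ _
    simp only [ContinuousLinearMap.comp_apply]
    linarith
  have h2 : (3 / 4 : ℝ) ≤ ((g n).comp A) (D.f n - D.p) := by
    have h3 : ((g n).comp A) (D.f n - D.p) =
        g n (A (D.f n - D.qb)) - ((g n).comp A) (D.p - D.qb) := by
      simp only [ContinuousLinearMap.comp_apply, map_sub]
      ring
    have h4 := (abs_lt.1 h1).2
    have h5 : min η (1 / 8 : ℝ) ≤ 1 / 8 := min_le_right _ _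
    rw [h3]
    linarith
  have h3 : (3 / 4 : ℝ) ≤ ‖A (D.f n - D.p)‖ := by
    refine h2.trans ?_
    refine (le_abs_self _).trans ?_
    have h4 := (g n).le_opNorm (A (D.f n - D.p))
    rw [Real.norm_eq_abs] at h4
    refine h4.trans ?_
    have h5 := mul_le_mul_of_nonneg_right (hg n).1 (norm_nonneg (A (D.f n - D.p)))
    linarith
  obtain ⟨S, hS, hS'⟩ := lemH hY D g hg A hA m (D.f n) hfn (t / 64) (by positivity) (by linarith)
  refine ⟨n, (-s) • (A.comp S) (D.f n - D.p),
    A (S (D.f n - D.p) - (D.R m (D.f n) - D.R m D.p)) + A (D.R m (D.f n) - D.f n),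
    hjn, ⟨A.comp S, hS, n, -s, ?_, rfl⟩, h3, ?_, ?_⟩
  · rcases hs with rfl | rfl
    · right; rfl
    · left; norm_num
  · refine (norm_add_le _ _).trans ?_
    have h4 : ‖A (S (D.f n - D.p) - (D.R m (D.f n) - D.R m D.p))‖ ≤ 8 * (t / 64) := by
      refine (A.le_opNorm _).trans ?_
      have := mul_le_mul hA.1 hS' (norm_nonneg _) zero_le_one
      linarith
    have h5 : ‖A (D.R m (D.f n) - D.f n)‖ ≤ t / 8 := by
      refine (A.le_opNorm _).trans ?_
      have h6 : ‖D.R m (D.f n) - D.f n‖ ≤ t / 8 := (hN n hNn).le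
      have := mul_le_mul hA.1 h6 (norm_nonneg _) zero_le_one
      linarith
    linarith
  · have h6 : D.R m D.p = D.f m := rfl
    rw [h6]
    have h7 : A (D.f n - D.p) +
        (A (S (D.f n - D.p) - (D.R m (D.f n) - D.f m)) + A (D.R m (D.f n) - D.f n)) =
        A (S (D.f n - D.p)) + A (D.f m - D.p) := by
      simp only [map_sub]
      abel
    rw [h7, ContinuousLinearMap.comp_apply]
    module

end Core

section Core

variable {Y : Type u} [NormedAddCommGroup Y] [NormedSpace ℝ Y] [CompleteSpace Y]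

/-- E4 (core). -/
theorem core [TopologicalSpace.SeparableSpace Y] (hY : Refl Y) (D : Data Y) : False := by
  obtain ⟨g, hg⟩ := exists_norming D
  refine pcp hY (Core.V D g) ⟨_, ContinuousLinearMap.id ℝ Y, inA_id D g hg, 0, 1, Or.inl rfl, rfl⟩
    ?_ ?_
  · rw [isBounded_iff_forall_norm_le]
    refine ⟨1, ?_⟩
    rintro v ⟨A, hA, m, s, hs, rfl⟩
    rw [norm_smul]
    have h1 : ‖s‖ = 1 := by
      rcases hs with rfl | rfl <;> simp
    rw [h1, one_mul]
    refine (A.le_opNorm _).trans ?_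
    have h2 : ‖D.f m - D.p‖ ≤ 1 := D.diam_le _ (Core.f_mem D m) _ D.hp
    have := mul_le_mul hA.1 h2 (norm_nonneg _) zero_le_one
    linarith
  · rintro v ⟨A, hA, m, s, hs, rfl⟩
    choose n u e hjn hu hbig he hue using Core.step hY D g hg A hA m s hs
    have hs1 : ‖s‖ = 1 := by
      rcases hs with rfl | rfl <;> simp
    refine ⟨u, hu, ?_, ?_⟩
    · intro φ
      have hn : Tendsto n atTop atTop := tendsto_atTop_mono hjn tendsto_id
      have h1 : Tendsto (fun j => φ (A (D.f (n j) - D.p))) atTop (𝓝 0) := by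
        have h2 := (D.weak (φ.comp A)).comp hn
        have h3 : Tendsto (fun j => (φ.comp A) (D.R (n j) D.p) - (φ.comp A) D.p) atTop
            (𝓝 ((φ.comp A) D.p - (φ.comp A) D.p)) := h2.sub_const _
        rw [sub_self] at h3
        refine h3.congr (fun j => ?_)
        simp [Data.f, map_sub]
      have h2 : Tendsto e atTop (𝓝 0) := by
        rw [tendsto_zero_iff_norm_tendsto_zero]
        refine squeeze_zero (fun j => norm_nonneg _) he ?_
        have := (tendsto_one_div_add_atTop_nhds_zero_nat (𝕜 := ℝ)).const_mul (1 / 4 : ℝ)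
        simpa using this
      have h3 : Tendsto (fun j => φ (e j)) atTop (𝓝 0) := by
        have h5 := (φ.continuous.tendsto 0).comp h2
        rw [map_zero] at h5
        exact h5
      have h4 : Tendsto (fun j => φ (s • A (D.f m - D.p)) -
          s * (φ (A (D.f (n j) - D.p)) + φ (e j))) atTop
          (𝓝 (φ (s • A (D.f m - D.p)) - s * (0 + 0))) :=
        ((h1.add h3).const_mul s).const_sub _
      rw [add_zero, mul_zero, sub_zero] at h4
      refine h4.congr (fun j => ?_)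
      rw [hue j, φ.map_sub, φ.map_smul s (A (D.f (n j) - D.p) + e j), φ.map_add, smul_eq_mul]
    · intro j
      have h1 : u j - s • A (D.f m - D.p) = -(s • (A (D.f (n j) - D.p) + e j)) := by
        rw [hue j]; abel
      rw [h1, norm_neg, norm_smul, hs1, one_mul]
      have h2 : ‖A (D.f (n j) - D.p)‖ ≤ ‖A (D.f (n j) - D.p) + e j‖ + ‖e j‖ := by
        have := norm_sub_le (A (D.f (n j) - D.p) + e j) (e j)
        simpa using this
      have h3 : (1 / 4 : ℝ) * (1 / ((j : ℝ) + 1)) ≤ 1 / 4 := by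
        have hj1 : 1 / ((j : ℝ) + 1) ≤ 1 := by
          rw [div_le_one (by positivity)]
          have : (0 : ℝ) ≤ j := Nat.cast_nonneg j
          linarith
        linarith
      have h4 := hbig j
      have h5 := he j
      linarith

end Core

end Crest.Agent.R108
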