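import Crest.Agent.R108.ClassG

set_option autoImplicit false

open Filter Topology Set

namespace Crest.Agent.R108

universe u

variable {Y : Type u} [NormedAddCommGroup Y] [NormedSpace ℝ Y] [CompleteSpace Y]

/-- G5. Goebel-Karlovitz (limsup version). -/
theorem goebel_karlovitz (M : MinSys Y) (f : ℕ → Y) (hf : ∀ n, f n ∈ M.K) (p : Y) (hp : p ∈ M.K)
    (hw : WTendsto f p) (hT : Tendsto (fun n => ‖M.T (f n) - f n‖) atTop (𝓝 0)) :
    ∀ q ∈ M.K, ∀ ε : ℝ, 0 < ε → ∀ n₀ : ℕ, ∃ n, n₀ ≤ n ∧ 1 - ε < ‖f n - q‖ := by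
  intro q hq ε hε n₀
  have h := M.minInv.goebel_karlovitz hf hT hp hw hq hε
  obtain ⟨n, hn, h1⟩ := (Filter.frequently_atTop.mp h) n₀
  exact ⟨n, hn, by rw [M.diam_eq] at h1; exact h1⟩

end Crest.Agent.R108
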