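import Crest.Agent.R108.Defs
import Crest.Agent.R108.Weak

/-! # R108 (S0142), W3: weak sequential compactness. -/

set_option autoImplicit false

open Filter Topology Set

namespace Crest.Agent.R108

universe u

section Weak

variable {X : Type u} [NormedAddCommGroup X] [NormedSpace ℝ X] [CompleteSpace X]

/-- W3. weak sequential compactness in the separable reflexive case. -/
theorem weak_seq_compact [TopologicalSpace.SeparableSpace X] (hX : Refl X) (K : Set X)
    (hc : IsClosed K) (hconv : Convex ℝ K) (hb : Bornology.IsBounded K) (a : ℕ → X)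
    (ha : ∀ n, a n ∈ K) :
    ∃ x ∈ K, ∃ φ : ℕ → ℕ, StrictMono φ ∧ WTendsto (fun n => a (φ n)) x :=
  W229.weak_subseq hX hc hconv hb (TopologicalSpace.IsSeparable.of_separableSpace K) ha

end Weak

end Crest.Agent.R108
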