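import Crest.Agent.R108.Resolvent
import Crest.Agent.R108.GK
import Crest.Agent.R108.Weak3

set_option autoImplicit false

open Filter Topology Set

namespace Crest.Agent.R108

universe u

/-- G6. assembly of the data, from weak sequential compactness. -/
theorem exists_data_of {Y : Type u} [NormedAddCommGroup Y] [NormedSpace ℝ Y] [CompleteSpace Y]
    [TopologicalSpace.SeparableSpace Y]
    (hW : ∀ (K : Set Y), IsClosed K → Convex ℝ K → Bornology.IsBounded K → ∀ a : ℕ → Y,
      (∀ n, a n ∈ K) → ∃ x ∈ K, ∃ φ : ℕ → ℕ, StrictMono φ ∧ WTendsto (fun n => a (φ n)) x)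
    (M : MinSys Y) :
    Nonempty (Data Y) := by
  obtain ⟨x0, hx0⟩ := M.nonempty
  haveI : Nonempty M.K := ⟨⟨x0, hx0⟩⟩
  obtain ⟨d', hd'⟩ := TopologicalSpace.exists_dense_seq M.K
  set d : ℕ → Y := fun n => (d' n : Y) with hd
  have hdK : ∀ n, d n ∈ M.K := fun n => (d' n).2
  have hdense : M.K ⊆ closure (range d) := by
    intro x hx
    have : (⟨x, hx⟩ : M.K) ∈ closure (range d') := hd' _
    have h2 := image_closure_subset_closure_image (f := ((↑) : M.K → Y)) continuous_subtype_val
      (mem_image_of_mem _ this)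
    rw [← range_comp] at h2
    exact h2
  obtain ⟨R, hR, hT, hcoll⟩ := M.minInv.exists_seq d hdK
  obtain ⟨p, hp, φ, hφ, hw⟩ := hW M.K M.closed M.convex M.bounded (fun n => R n (d 0))
    (fun n => (hR n).ne.maps (hdK 0))
  have hweak : ∀ x ∈ M.K, WTendsto (fun n => R (φ n) x) p := fun x hx f =>
    Coll.tendsto_functional hdK hdense (fun n => (hR n).ne) hcoll hφ f (hw f) hx
  have hTf : Tendsto (fun n => ‖M.T (R (φ n) p) - R (φ n) p‖) atTop (𝓝 0) := by
    refine squeeze_zero (fun n => norm_nonneg _) (fun n => hT (φ n) p hp) ?_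
    exact (tendsto_one_div_add_atTop_nhds_zero_nat (𝕜 := ℝ)).comp hφ.tendsto_atTop
  have hfK : ∀ n, R (φ n) p ∈ M.K := fun n => (hR (φ n)).ne.maps hp
  exact ⟨{
    K := M.K
    closed := M.closed
    convex := M.convex
    diam_le := M.diam_le
    p := p
    hp := hp
    d := d
    hd := hdK
    hdense := hdense
    dense_span := M.dense_span
    R := fun n => R (φ n)
    mapsTo := fun m => (hR (φ m)).ne.maps
    nonexp := fun m => (hR (φ m)).ne.le
    weak := hweak p hp
    fix := fun m => (hR (φ m)).tendsto_approx hfK hTf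
    far := goebel_karlovitz M _ hfK p hp (hweak p hp) hTf }⟩

/-- G6. assembly of the data. -/
theorem exists_data {Y : Type u} [NormedAddCommGroup Y] [NormedSpace ℝ Y] [CompleteSpace Y]
    [TopologicalSpace.SeparableSpace Y] (hY : Refl Y) (M : MinSys Y) :
    Nonempty (Data Y) :=
  exists_data_of (fun K h1 h2 h3 a ha => weak_seq_compact hY K h1 h2 h3 a ha) M

end Crest.Agent.R108
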