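import Crest.Agent.R108.ExData
import Crest.Agent.R108.Weak3

set_option autoImplicit false

open Filter Topology Set

namespace Crest.Agent.R108

universe u

variable {Y : Type u} [NormedAddCommGroup Y] [NormedSpace ℝ Y] [CompleteSpace Y]

/-- G6. assembly of the data. -/
theorem exists_data [TopologicalSpace.SeparableSpace Y] (hY : Refl Y) (M : MinSys Y) :
    Nonempty (Data Y) :=
  exists_data_of (fun K hc hconv hb a ha => weak_seq_compact hY K hc hconv hb a ha) M

end Crest.Agent.R108
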