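import Crest.Agent.R108.Defs

/-!
# R108 (S0142): E1, the finite average gradient estimate.
-/

set_option autoImplicit false

open Filter Topology Set

namespace Crest.Agent.R108

universe u

namespace Grid

variable {Y : Type u} [NormedAddCommGroup Y] [NormedSpace ℝ Y]
variable {ι : Type} [Fintype ι] [DecidableEq ι]

/-- the box -/
def B (M : ι → ℕ) : Finset (ι → ℕ) := Fintype.piFinset (fun k => Finset.range (M k))

lemma mem_B {M : ι → ℕ} {α : ι → ℕ} : α ∈ B M ↔ ∀ k, α k < M k := by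
  simp [B]

lemma sum_update (M : ι → ℕ) (k : ι) {Z : Type*} [AddCommMonoid Z] (F : (ι → ℕ) → Z) :
    ∑ α ∈ B M, ∑ a ∈ Finset.range (M k), F (Function.update α k a)
      = (M k) • ∑ α ∈ B M, F α := by
  classical
  have h1 : ∑ α ∈ B M, ∑ a ∈ Finset.range (M k), F (Function.update α k a)
      = ∑ x ∈ B M ×ˢ Finset.range (M k), F (Function.update x.1 k x.2) := by
    rw [Finset.sum_product]
  have h2 : ∑ x ∈ B M ×ˢ Finset.range (M k), F (Function.update x.1 k x.2)
      = ∑ x ∈ B M ×ˢ Finset.range (M k), F x.1 := by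
    refine Finset.sum_nbij' (fun x => (Function.update x.1 k x.2, x.1 k))
      (fun x => (Function.update x.1 k x.2, x.1 k)) ?_ ?_ ?_ ?_ ?_
    · rintro ⟨α, a⟩ hx
      simp only [Finset.mem_product, mem_B, Finset.mem_range] at hx ⊢
      refine ⟨fun j => ?_, hx.1 k⟩
      by_cases hj : j = k
      · subst hj; simpa using hx.2
      · simpa [Function.update_of_ne hj] using hx.1 j
    · rintro ⟨α, a⟩ hx
      simp only [Finset.mem_product, mem_B, Finset.mem_range] at hx ⊢
      refine ⟨fun j => ?_, hx.1 k⟩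
      by_cases hj : j = k
      · subst hj; simpa using hx.2
      · simpa [Function.update_of_ne hj] using hx.1 j
    · rintro ⟨α, a⟩ _
      simp
    · rintro ⟨α, a⟩ _
      simp
    · rintro ⟨α, a⟩ _
      rfl
  rw [h1, h2, Finset.sum_product]
  simp [Finset.smul_sum]

lemma card_B_pos (M : ι → ℕ) (h : ∀ k, 0 < M k) : 0 < (B M).card :=
  Finset.card_pos.mpr ⟨fun _ => 0, mem_B.mpr h⟩

lemma telescope (ψ : ℕ → Y) (m c : ℕ) (h : ∀ b, m ≤ b → ψ b = ψ m) :
    ∑ a ∈ Finset.range m, (ψ (a + c) - ψ a)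
      = (c : ℝ) • (ψ m - ψ 0) - ∑ a ∈ Finset.range c, (ψ a - ψ 0) := by
  have h1 : ∑ a ∈ Finset.range (c + m), ψ a
      = ∑ a ∈ Finset.range c, ψ a + ∑ a ∈ Finset.range m, ψ (c + a) :=
    Finset.sum_range_add ψ c m
  have h2 : ∑ a ∈ Finset.range (m + c), ψ a
      = ∑ a ∈ Finset.range m, ψ a + ∑ a ∈ Finset.range c, ψ (m + a) :=
    Finset.sum_range_add ψ m c
  have h3 : ∑ a ∈ Finset.range c, ψ (m + a) = (c : ℝ) • ψ m := by
    rw [Finset.sum_congr rfl (fun a _ => h (m + a) (Nat.le_add_right m a))]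
    simp [Nat.cast_smul_eq_nsmul]
  rw [Finset.sum_sub_distrib, Finset.sum_sub_distrib]
  have h4 : ∑ a ∈ Finset.range m, ψ (a + c) = ∑ a ∈ Finset.range m, ψ (c + a) := by
    simp [add_comm]
  have h5 : ∑ _a ∈ Finset.range c, ψ 0 = (c : ℝ) • ψ 0 := by
    simp [Nat.cast_smul_eq_nsmul]
  rw [h4, h5, smul_sub]
  rw [add_comm c m] at h1
  rw [h1] at h2
  rw [h3] at h2
  have h6 : ∑ a ∈ Finset.range m, ψ (c + a)
      = ∑ a ∈ Finset.range m, ψ a + (c : ℝ) • ψ m - ∑ a ∈ Finset.range c, ψ a := by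
    rw [← h2]; abel
  rw [h6]
  abel

lemma sum_trunc (m n : ℕ) (h : n ≤ m) :
    ∑ a ∈ Finset.range m, (a + n - m) ≤ n * n := by
  obtain ⟨r, rfl⟩ := Nat.exists_eq_add_of_le' h
  rw [Finset.sum_range_add (fun a => a + n - (r + n)) r n]
  have h1 : ∑ a ∈ Finset.range r, (a + n - (r + n)) = 0 := by
    apply Finset.sum_eq_zero
    intro a ha
    have := Finset.mem_range.mp ha
    omega
  have h2 : ∑ a ∈ Finset.range n, (r + a + n - (r + n)) ≤ ∑ _a ∈ Finset.range n, n := by
    apply Finset.sum_le_sum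
    intro a ha
    have := Finset.mem_range.mp ha
    omega
  rw [h1, zero_add]
  refine h2.trans ?_
  simp

section Main

variable (v : ι → Y) (M : ι → ℕ) (δ : ℝ) (φ : (ι → ℕ) → Y)

/-- clamped function -/
def cl (α : ι → ℕ) : Y := φ (fun j => min (α j) (M j))

variable {v M δ φ}

omit [DecidableEq ι] in
lemma cl_lip' (hφ : ∀ α β : ι → ℕ, (∀ k, α k ≤ M k) → (∀ k, β k ≤ M k) →
      ‖φ α - φ β‖ ≤ δ * ‖∑ k, ((α k : ℝ) - (β k : ℝ)) • v k‖) (α β : ι → ℕ) :
    ‖cl M φ α - cl M φ β‖
      ≤ δ * ‖∑ k, (((min (α k) (M k) : ℕ) : ℝ) - ((min (β k) (M k) : ℕ) : ℝ)) • v k‖ :=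
  hφ _ _ (fun _ => min_le_right _ _) (fun _ => min_le_right _ _)

omit [DecidableEq ι] in
lemma cl_lip (hv : ∀ k, ‖v k‖ ≤ 1) (hδ : 0 < δ)
    (hφ : ∀ α β : ι → ℕ, (∀ k, α k ≤ M k) → (∀ k, β k ≤ M k) →
      ‖φ α - φ β‖ ≤ δ * ‖∑ k, ((α k : ℝ) - (β k : ℝ)) • v k‖) (α β : ι → ℕ) :
    ‖cl M φ α - cl M φ β‖ ≤ δ * ∑ k, |(α k : ℝ) - (β k : ℝ)| := by
  refine (cl_lip' hφ α β).trans ?_
  refine mul_le_mul_of_nonneg_left ?_ hδ.le
  refine (norm_sum_le _ _).trans ?_
  apply Finset.sum_le_sum
  intro k _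
  rw [norm_smul]
  have h1 : |((min (α k) (M k) : ℕ) : ℝ) - ((min (β k) (M k) : ℕ) : ℝ)|
      ≤ |(α k : ℝ) - (β k : ℝ)| := by
    push_cast
    refine (abs_min_sub_min_le_max _ _ _ _).trans ?_
    simp
  calc _ ≤ |(α k : ℝ) - (β k : ℝ)| * 1 := by
        apply mul_le_mul _ (hv k) (norm_nonneg _) (abs_nonneg _)
        rw [Real.norm_eq_abs]; exact h1
    _ = _ := mul_one _

/-- the restriction of `c` to `s` -/
def rs (c : ι → ℕ) (s : Finset ι) : ι → ℕ := fun j => if j ∈ s then c j else 0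

omit [NormedAddCommGroup Y] [NormedSpace ℝ Y] in
lemma cl_update_eq {α : ι → ℕ} (hα : α ∈ B M) (k : ι) {b : ℕ} (hb : b ≤ M k) :
    cl M φ (Function.update α k b) = φ (Function.update α k b) := by
  unfold cl
  congr 1
  funext j
  by_cases hj : j = k
  · subst hj; simpa using hb
  · rw [Function.update_of_ne hj]
    exact min_eq_left (mem_B.mp hα j).le

lemma one_step (hv : ∀ k, ‖v k‖ ≤ 1) (hδ : 0 < δ) (hM : ∀ k, 0 < M k)
    (hφ : ∀ α β : ι → ℕ, (∀ k, α k ≤ M k) → (∀ k, β k ≤ M k) →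
      ‖φ α - φ β‖ ≤ δ * ‖∑ k, ((α k : ℝ) - (β k : ℝ)) • v k‖)
    (c : ι → ℕ) (s : Finset ι) (k : ι) (hk : k ∉ s) (L : ℝ) (hL : (∑ j, (c j : ℝ)) = L) :
    ‖∑ α ∈ B M, (cl M φ (α + rs c (insert k s)) - cl M φ (α + rs c s))
        - ((c k : ℝ) / (M k : ℝ)) •
          ∑ α ∈ B M, (φ (Function.update α k (M k)) - φ (Function.update α k 0))‖
      ≤ (B M).card * (3 * δ * (c k : ℝ) * L / (M k : ℝ)) := by
  have hM0 : (0 : ℝ) < (M k : ℝ) := by exact_mod_cast hM k
  have hcL : ∀ j, (c j : ℝ) ≤ L := by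
    intro j
    rw [← hL]
    exact Finset.single_le_sum (f := fun j => (c j : ℝ)) (fun i _ => Nat.cast_nonneg _)
      (Finset.mem_univ j)
  have hrs : ∑ j, (rs c s j : ℝ) ≤ L := by
    rw [← hL]
    apply Finset.sum_le_sum
    intro j _
    unfold rs
    split_ifs
    · exact le_refl _
    · simp
  have hL0 : 0 ≤ L := (Nat.cast_nonneg _).trans (hcL k)
  -- the key identity
  have key : (M k) • ∑ α ∈ B M, (cl M φ (α + rs c (insert k s)) - cl M φ (α + rs c s))
      = ∑ α ∈ B M, ((c k : ℝ) • (cl M φ (Function.update (α + rs c s) k (M k))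
            - cl M φ (Function.update (α + rs c s) k 0))
          - ∑ a ∈ Finset.range (c k), (cl M φ (Function.update (α + rs c s) k a)
            - cl M φ (Function.update (α + rs c s) k 0))) := by
    rw [← sum_update M k]
    apply Finset.sum_congr rfl
    intro α _
    have h1 := telescope (fun b => cl M φ (Function.update (α + rs c s) k b)) (M k) (c k) (by
      intro b hb
      simp only [cl]
      congr 1
      funext j
      by_cases hj : j = k
      · subst hj; simp [hb]
      · rw [Function.update_of_ne hj, Function.update_of_ne hj])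
    rw [← h1]
    apply Finset.sum_congr rfl
    intro a _
    have e1 : Function.update α k a + rs c (insert k s)
        = Function.update (α + rs c s) k (a + c k) := by
      funext j
      by_cases hj : j = k
      · subst hj; simp [rs]
      · simp [rs, hj]
    have e2 : Function.update α k a + rs c s = Function.update (α + rs c s) k a := by
      funext j
      by_cases hj : j = k
      · subst hj; simp [rs, hk]
      · simp [Function.update_of_ne hj]
    rw [e1, e2]
  have hW : ‖(M k : ℝ) • ∑ α ∈ B M, (cl M φ (α + rs c (insert k s)) - cl M φ (α + rs c s))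
        - (c k : ℝ) •
          ∑ α ∈ B M, (φ (Function.update α k (M k)) - φ (Function.update α k 0))‖
      ≤ (B M).card * (3 * δ * (c k : ℝ) * L) := by
    rw [Nat.cast_smul_eq_nsmul, key, Finset.smul_sum, ← Finset.sum_sub_distrib]
    refine (norm_sum_le _ _).trans ?_
    have : ∀ α ∈ B M, ‖(c k : ℝ) • (cl M φ (Function.update (α + rs c s) k (M k))
            - cl M φ (Function.update (α + rs c s) k 0))
          - ∑ a ∈ Finset.range (c k), (cl M φ (Function.update (α + rs c s) k a)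
            - cl M φ (Function.update (α + rs c s) k 0))
          - (c k : ℝ) • (φ (Function.update α k (M k)) - φ (Function.update α k 0))‖
          ≤ 3 * δ * (c k : ℝ) * L := by
      intro α hα
      have hd : ∀ b : ℕ, ‖cl M φ (Function.update (α + rs c s) k b)
          - cl M φ (Function.update α k b)‖ ≤ δ * L := by
        intro b
        refine (cl_lip hv hδ hφ _ _).trans (mul_le_mul_of_nonneg_left ?_ hδ.le)
        refine le_trans ?_ hrs
        apply Finset.sum_le_sum
        intro j _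
        by_cases hj : j = k
        · subst hj; simp
        · simp [Function.update_of_ne hj]
      have hA : ‖(c k : ℝ) • (cl M φ (Function.update (α + rs c s) k (M k))
            - cl M φ (Function.update (α + rs c s) k 0))
            - (c k : ℝ) • (φ (Function.update α k (M k)) - φ (Function.update α k 0))‖
            ≤ (c k : ℝ) * (2 * (δ * L)) := by
        rw [← smul_sub, norm_smul, Real.norm_of_nonneg (Nat.cast_nonneg _)]
        refine mul_le_mul_of_nonneg_left ?_ (Nat.cast_nonneg _)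
        rw [← cl_update_eq (φ := φ) hα k (le_refl (M k)), ← cl_update_eq (φ := φ) hα k (Nat.zero_le (M k))]
        have := hd (M k)
        have h0 := hd 0
        calc _ = ‖(cl M φ (Function.update (α + rs c s) k (M k))
                - cl M φ (Function.update α k (M k)))
              - (cl M φ (Function.update (α + rs c s) k 0)
                - cl M φ (Function.update α k 0))‖ := by congr 1; abel
          _ ≤ _ := (norm_sub_le _ _).trans (by linarith)
      have hB : ‖∑ a ∈ Finset.range (c k), (cl M φ (Function.update (α + rs c s) k a)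
            - cl M φ (Function.update (α + rs c s) k 0))‖ ≤ (c k : ℝ) * (δ * L) := by
        refine (norm_sum_le _ _).trans ?_
        calc _ ≤ ∑ _a ∈ Finset.range (c k), δ * L := by
              apply Finset.sum_le_sum
              intro a ha
              have ha' := Finset.mem_range.mp ha
              refine (cl_lip hv hδ hφ _ _).trans (mul_le_mul_of_nonneg_left ?_ hδ.le)
              have : ∑ j, |((Function.update (α + rs c s) k a j : ℕ) : ℝ)
                  - ((Function.update (α + rs c s) k 0 j : ℕ) : ℝ)| = a := by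
                rw [Finset.sum_eq_single k]
                · simp
                · intro j _ hj
                  simp [Function.update_of_ne hj]
                · simp
              rw [this]
              refine le_trans ?_ (hcL k)
              exact_mod_cast ha'.le
          _ = _ := by simp
      calc _ = ‖((c k : ℝ) • (cl M φ (Function.update (α + rs c s) k (M k))
            - cl M φ (Function.update (α + rs c s) k 0))
            - (c k : ℝ) • (φ (Function.update α k (M k)) - φ (Function.update α k 0)))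
            - ∑ a ∈ Finset.range (c k), (cl M φ (Function.update (α + rs c s) k a)
            - cl M φ (Function.update (α + rs c s) k 0))‖ := by congr 1; abel
        _ ≤ _ := (norm_sub_le _ _).trans (by linarith)
    calc _ ≤ ∑ _α ∈ B M, 3 * δ * (c k : ℝ) * L := Finset.sum_le_sum this
      _ = _ := by simp
  have e : ∑ α ∈ B M, (cl M φ (α + rs c (insert k s)) - cl M φ (α + rs c s))
        - ((c k : ℝ) / (M k : ℝ)) •
          ∑ α ∈ B M, (φ (Function.update α k (M k)) - φ (Function.update α k 0))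
      = (M k : ℝ)⁻¹ • ((M k : ℝ) • ∑ α ∈ B M, (cl M φ (α + rs c (insert k s)) - cl M φ (α + rs c s))
        - (c k : ℝ) •
          ∑ α ∈ B M, (φ (Function.update α k (M k)) - φ (Function.update α k 0))) := by
    rw [smul_sub, smul_smul, smul_smul, inv_mul_cancel₀ hM0.ne', one_smul]
    congr 2
    ring
  rw [e, norm_smul, norm_inv, Real.norm_of_nonneg hM0.le]
  calc _ ≤ (M k : ℝ)⁻¹ * ((B M).card * (3 * δ * (c k : ℝ) * L)) :=
        mul_le_mul_of_nonneg_left hW (inv_nonneg.mpr hM0.le)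
    _ = _ := by ring

lemma all_steps (hv : ∀ k, ‖v k‖ ≤ 1) (hδ : 0 < δ) (N : ℕ) (hN : 0 < N) (hMN : ∀ k, N ≤ M k)
    (hφ : ∀ α β : ι → ℕ, (∀ k, α k ≤ M k) → (∀ k, β k ≤ M k) →
      ‖φ α - φ β‖ ≤ δ * ‖∑ k, ((α k : ℝ) - (β k : ℝ)) • v k‖)
    (c : ι → ℕ) (L : ℝ) (hL : (∑ j, (c j : ℝ)) ≤ L) :
    ‖∑ α ∈ B M, (cl M φ (α + c) - cl M φ α)
        - ∑ k, ((c k : ℝ) / (M k : ℝ)) •
          ∑ α ∈ B M, (φ (Function.update α k (M k)) - φ (Function.update α k 0))‖
      ≤ (B M).card * (3 * δ * (∑ j, (c j : ℝ)) * L / N) := by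
  have hM : ∀ k, 0 < M k := fun k => lt_of_lt_of_le hN (hMN k)
  have hN0 : (0 : ℝ) < N := by exact_mod_cast hN
  have hL0 : 0 ≤ ∑ j, (c j : ℝ) := Finset.sum_nonneg fun _ _ => Nat.cast_nonneg _
  have main : ∀ s : Finset ι,
      ‖∑ α ∈ B M, (cl M φ (α + rs c s) - cl M φ α)
        - ∑ k ∈ s, ((c k : ℝ) / (M k : ℝ)) •
          ∑ α ∈ B M, (φ (Function.update α k (M k)) - φ (Function.update α k 0))‖
      ≤ (B M).card * (3 * δ * (∑ j ∈ s, (c j : ℝ)) * L / N) := by
    intro s
    induction s using Finset.induction_on with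
    | empty =>
      have : rs c ∅ = 0 := by funext j; simp [rs]
      simp [this]
    | insert k s hk ih =>
      have h1 := one_step hv hδ hM hφ c s k hk _ rfl
      rw [Finset.sum_insert hk, Finset.sum_insert hk]
      have h2 : ((B M).card : ℝ) * (3 * δ * (c k : ℝ) * (∑ j, (c j : ℝ)) / (M k : ℝ))
          ≤ (B M).card * (3 * δ * (c k : ℝ) * L / N) := by
        refine mul_le_mul_of_nonneg_left ?_ (Nat.cast_nonneg _)
        have hMk : (N : ℝ) ≤ M k := by exact_mod_cast hMN k
        have hc0 : (0 : ℝ) ≤ c k := Nat.cast_nonneg _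
        have : 3 * δ * (c k : ℝ) * (∑ j, (c j : ℝ)) ≤ 3 * δ * (c k : ℝ) * L :=
          mul_le_mul_of_nonneg_left hL (by positivity)
        calc _ ≤ 3 * δ * (c k : ℝ) * L / (M k : ℝ) :=
              div_le_div_of_nonneg_right this (by positivity)
          _ ≤ _ := div_le_div_of_nonneg_left (by
                have : 0 ≤ L := hL0.trans hL
                positivity) hN0 hMk
      calc _ = ‖(∑ α ∈ B M, (cl M φ (α + rs c (insert k s)) - cl M φ (α + rs c s))
              - ((c k : ℝ) / (M k : ℝ)) •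
              ∑ α ∈ B M, (φ (Function.update α k (M k)) - φ (Function.update α k 0)))
            + (∑ α ∈ B M, (cl M φ (α + rs c s) - cl M φ α)
              - ∑ k ∈ s, ((c k : ℝ) / (M k : ℝ)) •
              ∑ α ∈ B M, (φ (Function.update α k (M k)) - φ (Function.update α k 0)))‖ := by
            congr 1
            simp only [Finset.sum_sub_distrib]
            abel
        _ ≤ _ := (norm_add_le _ _).trans (add_le_add (h1.trans h2) ih)
        _ = _ := by ring
  have h := main Finset.univ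
  have e : rs c Finset.univ = c := by funext j; simp [rs]
  rwa [e] at h

lemma diff_bound (hv : ∀ k, ‖v k‖ ≤ 1) (hδ : 0 < δ)
    (hφ : ∀ α β : ι → ℕ, (∀ k, α k ≤ M k) → (∀ k, β k ≤ M k) →
      ‖φ α - φ β‖ ≤ δ * ‖∑ k, ((α k : ℝ) - (β k : ℝ)) • v k‖)
    (c : ι → ℤ) (hc : ∀ k, (c k).natAbs ≤ M k) (α : ι → ℕ) (hα : α ∈ B M) :
    ‖cl M φ (α + fun k => (c k).toNat) - cl M φ (α + fun k => (-c k).toNat)‖
      ≤ δ * (‖∑ k, (c k : ℝ) • v k‖ + ∑ k, ((α k + (c k).natAbs - M k : ℕ) : ℝ)) := by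
  refine (cl_lip' hφ _ _).trans (mul_le_mul_of_nonneg_left ?_ hδ.le)
  have hs : ∑ k, (((min ((α + fun k => (c k).toNat) k) (M k) : ℕ) : ℝ)
        - ((min ((α + fun k => (-c k).toNat) k) (M k) : ℕ) : ℝ)) • v k
      = ∑ k, (c k : ℝ) • v k + ∑ k, ((((min ((α + fun k => (c k).toNat) k) (M k) : ℕ) : ℝ)
        - ((min ((α + fun k => (-c k).toNat) k) (M k) : ℕ) : ℝ)) - (c k : ℝ)) • v k := by
    rw [← Finset.sum_add_distrib]
    apply Finset.sum_congr rfl
    intro k _
    rw [← add_smul]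
    congr 1
    ring
  rw [hs]
  refine (norm_add_le _ _).trans (add_le_add (le_refl _) ?_)
  refine (norm_sum_le _ _).trans ?_
  apply Finset.sum_le_sum
  intro k _
  rw [norm_smul]
  have h1 : |(((min ((α + fun k => (c k).toNat) k) (M k) : ℕ) : ℝ)
        - ((min ((α + fun k => (-c k).toNat) k) (M k) : ℕ) : ℝ)) - (c k : ℝ)|
      ≤ ((α k + (c k).natAbs - M k : ℕ) : ℝ) := by
    have hlt := mem_B.mp hα k
    have hck := hc k
    have : |(((min ((α + fun k => (c k).toNat) k) (M k) : ℕ) : ℤ)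
        - ((min ((α + fun k => (-c k).toNat) k) (M k) : ℕ) : ℤ)) - (c k : ℤ)|
        ≤ ((α k + (c k).natAbs - M k : ℕ) : ℤ) := by
      simp only [Pi.add_apply]
      rw [abs_le]
      omega
    exact_mod_cast this
  calc _ ≤ ((α k + (c k).natAbs - M k : ℕ) : ℝ) * 1 := by
        apply mul_le_mul _ (hv k) (norm_nonneg _) (Nat.cast_nonneg _)
        rw [Real.norm_eq_abs]; exact h1
    _ = _ := mul_one _

lemma trunc_sum (N : ℕ) (hN : 0 < N) (hMN : ∀ k, N ≤ M k) (n : ℕ) (k : ι) (hn : n ≤ M k) :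
    ∑ α ∈ B M, ((α k + n - M k : ℕ) : ℝ) ≤ (B M).card * ((n : ℝ) ^ 2 / N) := by
  have h := sum_update M k (fun α => ((α k + n - M k : ℕ) : ℝ))
  simp only [Function.update_self] at h
  have h2 : ∑ a ∈ Finset.range (M k), ((a + n - M k : ℕ) : ℝ) ≤ (n : ℝ) * n := by
    exact_mod_cast sum_trunc (M k) n hn
  have h3 : (M k : ℝ) * ∑ α ∈ B M, ((α k + n - M k : ℕ) : ℝ) ≤ (B M).card * ((n : ℝ) * n) := by
    rw [nsmul_eq_mul] at h
    rw [← h]
    simp only [Finset.sum_const, nsmul_eq_mul]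
    exact mul_le_mul_of_nonneg_left h2 (Nat.cast_nonneg _)
  have hN0 : (0 : ℝ) < N := by exact_mod_cast hN
  have hNM : (N : ℝ) ≤ M k := by exact_mod_cast hMN k
  have h0 : 0 ≤ ∑ α ∈ B M, ((α k + n - M k : ℕ) : ℝ) :=
    Finset.sum_nonneg fun _ _ => Nat.cast_nonneg _
  have h4 : (N : ℝ) * ∑ α ∈ B M, ((α k + n - M k : ℕ) : ℝ) ≤ (B M).card * ((n : ℝ) * n) :=
    (mul_le_mul_of_nonneg_right hNM h0).trans h3
  rw [← mul_div_assoc, le_div_iff₀ hN0, sq]
  linarith

end Main

end Grid

variable {Y : Type u} [NormedAddCommGroup Y] [NormedSpace ℝ Y] [CompleteSpace Y]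

/-- E1 (finite average gradient estimate). `n` directions `v k`, grids `0..M k` with common mesh `δ`,
`φ` is defined on the integer box. -/
theorem grid_estimate {ι : Type} [Fintype ι] [DecidableEq ι] (v : ι → Y) (hv : ∀ k, ‖v k‖ ≤ 1)
    (M : ι → ℕ) (N : ℕ) (hN : 0 < N) (hMN : ∀ k, N ≤ M k) (δ : ℝ) (hδ : 0 < δ) (φ : (ι → ℕ) → Y)
    (hφ : ∀ α β : ι → ℕ, (∀ k, α k ≤ M k) → (∀ k, β k ≤ M k) →
      ‖φ α - φ β‖ ≤ δ * ‖∑ k, ((α k : ℝ) - (β k : ℝ)) • v k‖) :
    ∃ w : ι → Y,
      (∀ k, w k ∈ convexHull ℝ {u : Y | ∃ α : ι → ℕ, (∀ j, α j ≤ M j) ∧ α k = 0 ∧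
        u = ((M k : ℝ) * δ)⁻¹ • (φ (Function.update α k (M k)) - φ α)}) ∧
      ∀ c : ι → ℤ, ‖∑ k, (c k : ℝ) • w k‖ ≤ ‖∑ k, (c k : ℝ) • v k‖ +
        8 * (Fintype.card ι + 1) * (∑ k, |(c k : ℝ)|) ^ 2 / N := by
  classical
  have hM : ∀ k, 0 < M k := fun k => lt_of_lt_of_le hN (hMN k)
  have hN0 : (0 : ℝ) < N := by exact_mod_cast hN
  have hcard : (0 : ℝ) < ((Grid.B M).card : ℝ) := by exact_mod_cast Grid.card_B_pos M hM
  set Q : ι → Y := fun k => ∑ α ∈ Grid.B M,
    (φ (Function.update α k (M k)) - φ (Function.update α k 0)) with hQ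
  set w : ι → Y := fun k => ((Grid.B M).card : ℝ)⁻¹ • (((M k : ℝ) * δ)⁻¹ • Q k) with hw
  have hmem : ∀ k, w k ∈ convexHull ℝ {u : Y | ∃ α : ι → ℕ, (∀ j, α j ≤ M j) ∧ α k = 0 ∧
        u = ((M k : ℝ) * δ)⁻¹ • (φ (Function.update α k (M k)) - φ α)} := by
    intro k
    have e : w k = ∑ α ∈ Grid.B M, ((Grid.B M).card : ℝ)⁻¹ •
        (((M k : ℝ) * δ)⁻¹ • (φ (Function.update α k (M k)) - φ (Function.update α k 0))) := by
      simp only [hw, hQ, Finset.smul_sum]
    rw [e]
    apply (convex_convexHull ℝ _).sum_mem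
    · intro α _
      positivity
    · rw [Finset.sum_const, nsmul_eq_mul, mul_inv_cancel₀ hcard.ne']
    · intro α hα
      apply subset_convexHull
      refine ⟨Function.update α k 0, ?_, by simp, by simp⟩
      intro j
      by_cases hj : j = k
      · subst hj; simp
      · rw [Function.update_of_ne hj]
        exact (Grid.mem_B.mp hα j).le
  have hnorm : ∀ k, ‖w k‖ ≤ 1 := by
    intro k
    have hsub : {u : Y | ∃ α : ι → ℕ, (∀ j, α j ≤ M j) ∧ α k = 0 ∧
        u = ((M k : ℝ) * δ)⁻¹ • (φ (Function.update α k (M k)) - φ α)}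
        ⊆ Metric.closedBall (0 : Y) 1 := by
      rintro u ⟨α, hα, hαk, rfl⟩
      rw [mem_closedBall_zero_iff, norm_smul, norm_inv]
      have hMk : (0 : ℝ) < (M k : ℝ) := by exact_mod_cast hM k
      rw [Real.norm_of_nonneg (by positivity), inv_mul_le_iff₀ (by positivity), mul_one]
      refine (hφ _ _ ?_ hα).trans ?_
      · intro j
        by_cases hj : j = k
        · subst hj; simp
        · rw [Function.update_of_ne hj]; exact hα j
      · have : ∑ j, (((Function.update α k (M k) j : ℕ) : ℝ) - (α j : ℝ)) • v j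
            = (M k : ℝ) • v k := by
          rw [Finset.sum_eq_single k]
          · simp [hαk]
          · intro j _ hj
            simp [Function.update_of_ne hj]
          · simp
        rw [this, norm_smul, Real.norm_of_nonneg hMk.le]
        calc δ * ((M k : ℝ) * ‖v k‖) ≤ δ * ((M k : ℝ) * 1) :=
              mul_le_mul_of_nonneg_left (mul_le_mul_of_nonneg_left (hv k) hMk.le) hδ.le
          _ = _ := by ring
    have := convexHull_min hsub (convex_closedBall _ _) (hmem k)
    simpa using this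
  refine ⟨w, hmem, fun c => ?_⟩
  set L : ℝ := ∑ k, |(c k : ℝ)| with hL
  have hL0 : 0 ≤ L := Finset.sum_nonneg fun _ _ => abs_nonneg _
  have hcards : (0 : ℝ) ≤ (Fintype.card ι : ℝ) := Nat.cast_nonneg _
  rcases le_or_gt (N : ℝ) L with hNL | hLN
  · -- trivial case
    have h1 : ‖∑ k, (c k : ℝ) • w k‖ ≤ L := by
      refine (norm_sum_le _ _).trans ?_
      apply Finset.sum_le_sum
      intro k _
      rw [norm_smul, Real.norm_eq_abs]
      calc _ ≤ |(c k : ℝ)| * 1 := mul_le_mul_of_nonneg_left (hnorm k) (abs_nonneg _)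
        _ = _ := mul_one _
    have h2 : L ≤ 8 * (Fintype.card ι + 1) * L ^ 2 / N := by
      rw [le_div_iff₀ hN0]
      nlinarith [mul_nonneg hcards (sq_nonneg L)]
    have h3 := norm_nonneg (∑ k, (c k : ℝ) • v k)
    linarith
  · -- main case
    have hcL : ∀ k, |(c k : ℝ)| ≤ L := fun k =>
      Finset.single_le_sum (f := fun k => |(c k : ℝ)|) (fun i _ => abs_nonneg _)
        (Finset.mem_univ k)
    have hcabs : ∀ k, ((c k).natAbs : ℝ) = |(c k : ℝ)| := fun k => by
      rw [Nat.cast_natAbs, Int.cast_abs]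
    have hcM : ∀ k, (c k).natAbs ≤ M k := by
      intro k
      have : ((c k).natAbs : ℝ) < N := by rw [hcabs]; exact (hcL k).trans_lt hLN
      have : (c k).natAbs < N := by exact_mod_cast this
      exact this.le.trans (hMN k)
    set cp : ι → ℕ := fun k => (c k).toNat with hcp
    set cm : ι → ℕ := fun k => (-c k).toNat with hcm
    have hcpm : ∀ k, (cp k : ℝ) - (cm k : ℝ) = (c k : ℝ) := by
      intro k
      have : ((cp k : ℤ) - (cm k : ℤ)) = c k := by simp only [hcp, hcm]; omega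
      exact_mod_cast this
    have hcpp : ∀ k, (cp k : ℝ) + (cm k : ℝ) = |(c k : ℝ)| := by
      intro k
      rw [← hcabs]
      have : cp k + cm k = (c k).natAbs := by simp only [hcp, hcm]; omega
      exact_mod_cast this
    have hsum : (∑ k, (cp k : ℝ)) + (∑ k, (cm k : ℝ)) = L := by
      rw [hL, ← Finset.sum_add_distrib]
      exact Finset.sum_congr rfl fun k _ => hcpp k
    have hp0 : 0 ≤ ∑ k, (cp k : ℝ) := Finset.sum_nonneg fun _ _ => Nat.cast_nonneg _
    have hm0 : 0 ≤ ∑ k, (cm k : ℝ) := Finset.sum_nonneg fun _ _ => Nat.cast_nonneg _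
    have hA := Grid.all_steps (c := cp) hv hδ N hN hMN hφ L (by linarith)
    have hB := Grid.all_steps (c := cm) hv hδ N hN hMN hφ L (by linarith)
    have hC : ‖∑ α ∈ Grid.B M, (Grid.cl M φ (α + cp) - Grid.cl M φ (α + cm))‖
        ≤ (Grid.B M).card * (δ * (‖∑ k, (c k : ℝ) • v k‖ + L ^ 2 / N)) := by
      refine (norm_sum_le _ _).trans ?_
      calc _ ≤ ∑ α ∈ Grid.B M, δ * (‖∑ k, (c k : ℝ) • v k‖
              + ∑ k, ((α k + (c k).natAbs - M k : ℕ) : ℝ)) :=
            Finset.sum_le_sum fun α hα => Grid.diff_bound hv hδ hφ c hcM α hα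
        _ = (Grid.B M).card * (δ * ‖∑ k, (c k : ℝ) • v k‖)
              + δ * ∑ k, ∑ α ∈ Grid.B M, ((α k + (c k).natAbs - M k : ℕ) : ℝ) := by
            rw [Finset.sum_comm, ← Finset.mul_sum, Finset.sum_add_distrib, Finset.sum_const,
              nsmul_eq_mul]
            ring
        _ ≤ (Grid.B M).card * (δ * ‖∑ k, (c k : ℝ) • v k‖)
              + δ * ∑ k, (Grid.B M).card * (((c k).natAbs : ℝ) ^ 2 / N) := by
            refine add_le_add (le_refl _) (mul_le_mul_of_nonneg_left ?_ hδ.le)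
            exact Finset.sum_le_sum fun k _ => Grid.trunc_sum N hN hMN _ k (hcM k)
        _ ≤ _ := by
            have h1 : ∑ k, ((c k).natAbs : ℝ) ^ 2 ≤ L ^ 2 := by
              calc _ = ∑ k, |(c k : ℝ)| * |(c k : ℝ)| :=
                    Finset.sum_congr rfl fun k _ => by rw [hcabs, sq]
                _ ≤ ∑ k, |(c k : ℝ)| * L := Finset.sum_le_sum fun k _ =>
                    mul_le_mul_of_nonneg_left (hcL k) (abs_nonneg _)
                _ = L ^ 2 := by rw [← Finset.sum_mul, ← hL, sq]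
            have h2 : ∑ k, ((Grid.B M).card : ℝ) * (((c k).natAbs : ℝ) ^ 2 / N)
                ≤ (Grid.B M).card * (L ^ 2 / N) := by
              rw [← Finset.mul_sum, ← Finset.sum_div]
              exact mul_le_mul_of_nonneg_left (div_le_div_of_nonneg_right h1 hN0.le) hcard.le
            have := mul_le_mul_of_nonneg_left h2 hδ.le
            nlinarith
    have hD : ‖∑ k, ((c k : ℝ) / (M k : ℝ)) • Q k‖
        ≤ (Grid.B M).card * (δ * (‖∑ k, (c k : ℝ) • v k‖ + 4 * L ^ 2 / N)) := by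
      have e : ∑ k, ((c k : ℝ) / (M k : ℝ)) • Q k
          = ∑ α ∈ Grid.B M, (Grid.cl M φ (α + cp) - Grid.cl M φ (α + cm))
            - (∑ α ∈ Grid.B M, (Grid.cl M φ (α + cp) - Grid.cl M φ α)
              - ∑ k, ((cp k : ℝ) / (M k : ℝ)) • Q k)
            + (∑ α ∈ Grid.B M, (Grid.cl M φ (α + cm) - Grid.cl M φ α)
              - ∑ k, ((cm k : ℝ) / (M k : ℝ)) • Q k) := by
        have e1 : ∑ k, ((c k : ℝ) / (M k : ℝ)) • Q k
            = ∑ k, ((cp k : ℝ) / (M k : ℝ)) • Q k - ∑ k, ((cm k : ℝ) / (M k : ℝ)) • Q k := by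
          rw [← Finset.sum_sub_distrib]
          apply Finset.sum_congr rfl
          intro k _
          rw [← sub_smul, ← sub_div, hcpm]
        rw [e1]
        simp only [Finset.sum_sub_distrib]
        abel
      rw [e]
      refine (norm_add_le _ _).trans ?_
      refine (add_le_add (norm_sub_le _ _) (le_refl _)).trans ?_
      have hAB : ((Grid.B M).card : ℝ) * (3 * δ * (∑ j, (cp j : ℝ)) * L / N)
          + (Grid.B M).card * (3 * δ * (∑ j, (cm j : ℝ)) * L / N)
          = (Grid.B M).card * (δ * (3 * L ^ 2 / N)) := by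
        rw [← mul_add, ← add_div, ← add_mul, ← mul_add, hsum]
        ring
      calc _ ≤ (Grid.B M).card * (δ * (‖∑ k, (c k : ℝ) • v k‖ + L ^ 2 / N))
            + (Grid.B M).card * (3 * δ * (∑ j, (cp j : ℝ)) * L / N)
            + (Grid.B M).card * (3 * δ * (∑ j, (cm j : ℝ)) * L / N) :=
            add_le_add (add_le_add hC hA) hB
        _ = (Grid.B M).card * (δ * (‖∑ k, (c k : ℝ) • v k‖ + L ^ 2 / N))
            + (Grid.B M).card * (δ * (3 * L ^ 2 / N)) := by rw [add_assoc, hAB]
        _ = _ := by ring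
    have hE : ∑ k, (c k : ℝ) • w k
        = (((Grid.B M).card : ℝ) * δ)⁻¹ • ∑ k, ((c k : ℝ) / (M k : ℝ)) • Q k := by
      rw [Finset.smul_sum]
      apply Finset.sum_congr rfl
      intro k _
      simp only [hw]
      rw [smul_smul, smul_smul, smul_smul]
      congr 1
      have hMk : (M k : ℝ) ≠ 0 := by exact_mod_cast (hM k).ne'
      field_simp
    rw [hE, norm_smul, norm_inv, Real.norm_of_nonneg (by positivity), inv_mul_le_iff₀ (by positivity)]
    refine hD.trans ?_
    rw [← mul_assoc]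
    refine mul_le_mul_of_nonneg_left (add_le_add (le_refl _) ?_) (by positivity)
    apply div_le_div_of_nonneg_right _ hN0.le
    nlinarith [mul_nonneg hcards (sq_nonneg L), sq_nonneg L]

end Crest.Agent.R108
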