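import Crest.Agent.R108.Defs

/-!
# R108 (S0142): interface with `sorry` (never import it from a proof file).
-/

set_option autoImplicit false

open Filter Topology Set

namespace Crest.Agent.R108

universe u

section Weak

variable {X : Type u} [NormedAddCommGroup X] [NormedSpace ℝ X] [CompleteSpace X]

/-- W1. closed bounded convex sets are compact in the weak space. -/
theorem weak_compact (hX : Refl X) (K : Set X) (hc : IsClosed K) (hconv : Convex ℝ K)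
    (hb : Bornology.IsBounded K) :
    IsCompact ((toWeakSpace ℝ X) '' K) := by
  sorry

/-- W2. closed subspaces of reflexive spaces are reflexive. -/
theorem refl_subspace (hX : Refl X) (Y : Submodule ℝ X) (hY : IsClosed (Y : Set X)) : Refl Y := by
  sorry

/-- W3. weak sequential compactness in the separable reflexive case. -/
theorem weak_seq_compact [TopologicalSpace.SeparableSpace X] (hX : Refl X) (K : Set X)
    (hc : IsClosed K) (hconv : Convex ℝ K) (hb : Bornology.IsBounded K) (a : ℕ → X)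
    (ha : ∀ n, a n ∈ K) :
    ∃ x ∈ K, ∃ φ : ℕ → ℕ, StrictMono φ ∧ WTendsto (fun n => a (φ n)) x := by
  sorry

/-- W4 (point of continuity property): a nonempty bounded set in a separable reflexive space has a
point `v` that is not a weak limit of points of the set at distance `≥ 1/2`. Weak limit along a
filter-free formulation: every weak neighbourhood given by finitely many functionals. -/
theorem pcp [TopologicalSpace.SeparableSpace X] (hX : Refl X) (V : Set X) (hne : V.Nonempty)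
    (hb : Bornology.IsBounded V)
    (h : ∀ v ∈ V, ∃ u : ℕ → X, (∀ n, u n ∈ V) ∧ WTendsto u v ∧ ∀ n, (1 / 2 : ℝ) ≤ ‖u n - v‖) :
    False := by
  sorry

end Weak

section Front

variable {X : Type u} [NormedAddCommGroup X] [NormedSpace ℝ X] [CompleteSpace X]

/-- M1. Zorn. -/
theorem exists_minimal (hX : Refl X) (C : Set X) (hC₁ : C.Nonempty) (hC₂ : IsClosed C)
    (hC₃ : Bornology.IsBounded C) (hC₄ : Convex ℝ C) (F : X → X) (hF₁ : Set.MapsTo F C C) :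
    ∃ K : Set X, K ⊆ C ∧ K.Nonempty ∧ IsClosed K ∧ Convex ℝ K ∧ MapsTo F K K ∧
      ∀ L : Set X, L ⊆ K → L.Nonempty → IsClosed L → Convex ℝ L → MapsTo F L L → L = K := by
  sorry

/-- M2. A minimal invariant set (nonexpansive map) is separable. -/
theorem minimal_separable (K : Set X) (hne : K.Nonempty) (hc : IsClosed K) (hconv : Convex ℝ K)
    (F : X → X) (hF : MapsTo F K K) (hFne : ∀ a ∈ K, ∀ b ∈ K, ‖F a - F b‖ ≤ ‖a - b‖)
    (hmin : ∀ L : Set X, L ⊆ K → L.Nonempty → IsClosed L → Convex ℝ L → MapsTo F L L → L = K) :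
    TopologicalSpace.IsSeparable K := by
  sorry

/-- M3. Passage to a minimal system on a separable reflexive space. -/
theorem exists_minSys (hX : Refl X) (C : Set X) (hC₁ : C.Nonempty) (hC₂ : IsClosed C)
    (hC₃ : Bornology.IsBounded C) (hC₄ : Convex ℝ C) (F : X → X) (hF₁ : Set.MapsTo F C C)
    (hF₂ : ∀ a ∈ C, ∀ b ∈ C, ‖F a - F b‖ ≤ ‖a - b‖) (hfix : ∀ x ∈ C, F x ≠ x) :
    ∃ Y : Submodule ℝ X, IsClosed (Y : Set X) ∧ TopologicalSpace.SeparableSpace Y ∧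
      Nonempty (MinSys Y) := by
  sorry

end Front

section Sys

variable {Y : Type u} [NormedAddCommGroup Y] [NormedSpace ℝ Y] [CompleteSpace Y]

/-- G1. class `InG` is closed under composition, contains `id` and is convex, and `T ∘`. -/
theorem inG_id (M : MinSys Y) : InG M id := by
  sorry

theorem inG_comp (M : MinSys Y) {R R' : Y → Y} (h : InG M R) (h' : InG M R') :
    InG M (R ∘ R') := by
  sorry

theorem inG_T (M : MinSys Y) : InG M M.T := by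
  sorry

theorem inG_convex (M : MinSys Y) {R R' : Y → Y} (h : InG M R) (h' : InG M R') (a b : ℝ)
    (ha : 0 ≤ a) (hb : 0 ≤ b) (hab : a + b = 1) :
    InG M (fun x => a • R x + b • R' x) := by
  sorry

/-- G2. collapse of two points. -/
theorem collapse (M : MinSys Y) (x y : Y) (hx : x ∈ M.K) (hy : y ∈ M.K) (ε : ℝ) (hε : 0 < ε) :
    ∃ G : Y → Y, InG M G ∧ ‖G x - G y‖ < ε := by
  sorry

/-- G3. collapse of finitely many points. -/
theorem collapse_fin (M : MinSys Y) (d : ℕ → Y) (hd : ∀ k, d k ∈ M.K) (n : ℕ) (ε : ℝ)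
    (hε : 0 < ε) :
    ∃ G : Y → Y, InG M G ∧ ∀ i ≤ n, ‖G (d i) - G (d 0)‖ < ε := by
  sorry

/-- G4. resolvent. -/
theorem resolvent (M : MinSys Y) (l : ℝ) (hl : 0 < l) (hl1 : l < 1) :
    ∃ z : Y → Y, InG M z ∧ ∀ x ∈ M.K, ‖M.T (z x) - z x‖ ≤ l := by
  sorry

/-- G5. Goebel-Karlovitz (limsup version). -/
theorem goebel_karlovitz (M : MinSys Y) (f : ℕ → Y) (hf : ∀ n, f n ∈ M.K) (p : Y) (hp : p ∈ M.K)
    (hw : WTendsto f p) (hT : Tendsto (fun n => ‖M.T (f n) - f n‖) atTop (𝓝 0)) :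
    ∀ q ∈ M.K, ∀ ε : ℝ, 0 < ε → ∀ n₀ : ℕ, ∃ n, n₀ ≤ n ∧ 1 - ε < ‖f n - q‖ := by
  sorry

/-- G6. assembly of the data. -/
theorem exists_data [TopologicalSpace.SeparableSpace Y] (hY : Refl Y) (M : MinSys Y) :
    Nonempty (Data Y) := by
  sorry

end Sys

section Core

variable {Y : Type u} [NormedAddCommGroup Y] [NormedSpace ℝ Y] [CompleteSpace Y]

/-- D1. -/
theorem qb_mem (D : Data Y) : D.qb ∈ D.K := by
  sorry

/-- D2. Lemma U. -/
theorem lemU (D : Data Y) (C : Set Y) (hC : IsCompact C) (hCK : C ⊆ D.K) (ε : ℝ) (hε : 0 < ε) :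
    ∃ η : ℝ, 0 < η ∧ ∀ (k : Y →L[ℝ] ℝ), ‖k‖ ≤ 1 → ∀ x ∈ D.K, 1 - η < k (x - D.qb) →
      ∀ q ∈ C, 1 - ε < k (x - q) := by
  sorry

/-- D3. -/
theorem exists_norming (D : Data Y) : ∃ g : ℕ → (Y →L[ℝ] ℝ), Norming D g := by
  sorry

/-- D4. -/
theorem inA_id (D : Data Y) (g : ℕ → (Y →L[ℝ] ℝ)) (hg : Norming D g) :
    InA D g (ContinuousLinearMap.id ℝ Y) := by
  sorry

/-- D5. along indices where `g n (A (f n - qb))` is close to one, `g n (A y)` is small. -/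
theorem small_of_near (D : Data Y) (y : Y) (ε : ℝ) (hε : 0 < ε) :
    ∃ η : ℝ, 0 < η ∧ ∀ (k : Y →L[ℝ] ℝ), ‖k‖ ≤ 1 → ∀ x ∈ D.K, 1 - η < k (x - D.qb) →
      |k y| < ε := by
  sorry

/-- E1 (finite average gradient estimate). `n` directions `v k`, grids `0..M k` with common mesh `δ`,
`φ` is defined on the integer box. -/
theorem grid_estimate {ι : Type} [Fintype ι] [DecidableEq ι] (v : ι → Y) (hv : ∀ k, ‖v k‖ ≤ 1)
    (M : ι → ℕ) (N : ℕ) (hN : 0 < N) (hMN : ∀ k, N ≤ M k) (δ : ℝ) (hδ : 0 < δ) (φ : (ι → ℕ) → Y)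
    (hφ : ∀ α β : ι → ℕ, (∀ k, α k ≤ M k) → (∀ k, β k ≤ M k) →
      ‖φ α - φ β‖ ≤ δ * ‖∑ k, ((α k : ℝ) - (β k : ℝ)) • v k‖) :
    ∃ w : ι → Y,
      (∀ k, w k ∈ convexHull ℝ {u : Y | ∃ α : ι → ℕ, (∀ j, α j ≤ M j) ∧ α k = 0 ∧
        u = ((M k : ℝ) * δ)⁻¹ • (φ (Function.update α k (M k)) - φ α)}) ∧
      ∀ c : ι → ℤ, ‖∑ k, (c k : ℝ) • w k‖ ≤ ‖∑ k, (c k : ℝ) • v k‖ +
        8 * (Fintype.card ι + 1) * (∑ k, |(c k : ℝ)|) ^ 2 / N := by
  sorry

/-- E2 (Lemma Grad). -/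
theorem grad (hY : Refl Y) (K : Set Y) (hKc : IsClosed K) (hK : Convex ℝ K)
    (hdiam : ∀ x ∈ K, ∀ y ∈ K, ‖x - y‖ ≤ 1) (p : Y) (hp : p ∈ K) (x : ℕ → Y) (hx : ∀ k, x k ∈ K)
    (ε : ℕ → ℝ) (hε : ∀ k, 0 < ε k) (hdy : ∀ k, ∃ a s : ℕ, ε k = (a : ℝ) / 2 ^ s)
    (hsum : ∀ n, ∑ j ∈ Finset.range n, ε j ≤ 1) (z : Y → Y) (hz : MapsTo z K K) (hzne : ∀ a ∈ K, ∀ b ∈ K, ‖z a - z b‖ ≤ ‖a - b‖)
    (hdense : (Submodule.span ℝ (Set.range (fun k => x k - p))).topologicalClosure = ⊤) :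
    ∃ S : Y →L[ℝ] Y, ‖S‖ ≤ 1 ∧ ∀ k, S (x k - p) ∈ closure (convexHull ℝ (Quot z p x ε k)) := by
  sorry

/-- E3 (Lemma H, heredity). -/
theorem lemH (hY : Refl Y) (D : Data Y) (g : ℕ → (Y →L[ℝ] ℝ)) (hg : Norming D g)
    (A : Y →L[ℝ] Y) (hA : InA D g A) (m : ℕ) (x₀ : Y) (hx₀ : x₀ ∈ D.K) (ε : ℝ) (hε : 0 < ε)
    (hε2 : ε < 1 / 2) :
    ∃ S : Y →L[ℝ] Y, InA D g (A.comp S) ∧
      ‖S (x₀ - D.p) - (D.R m x₀ - D.R m D.p)‖ ≤ 8 * ε := by
  sorry

/-- E4 (core). -/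
theorem core [TopologicalSpace.SeparableSpace Y] (hY : Refl Y) (D : Data Y) : False := by
  sorry

end Core

section Final

variable {X : Type u} [NormedAddCommGroup X] [NormedSpace ℝ X] [CompleteSpace X]

/-- final assembly -/
theorem main (hX : Refl X) (C : Set X) (hC₁ : C.Nonempty) (hC₂ : IsClosed C)
    (hC₃ : Bornology.IsBounded C) (hC₄ : Convex ℝ C) (F : X → X) (hF₁ : Set.MapsTo F C C)
    (hF₂ : ∀ a ∈ C, ∀ b ∈ C, ‖F a - F b‖ ≤ ‖a - b‖) :
    ∃ x ∈ C, F x = x := by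
  by_contra hcon
  push_neg at hcon
  obtain ⟨Y, hYc, hYs, ⟨M⟩⟩ := exists_minSys hX C hC₁ hC₂ hC₃ hC₄ F hF₁ hF₂ hcon
  haveI := hYs
  haveI : CompleteSpace Y := hYc.completeSpace_coe
  have hY : Refl Y := refl_subspace hX Y hYc
  obtain ⟨D⟩ := exists_data hY M
  exact core hY D

end Final

end Crest.Agent.R108
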