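import Crest.Agent.R108.Unif

/-! Row 108 (S0142): Lemma H (heredity).  helper261 -/

set_option autoImplicit false

open Filter Topology Set

namespace Crest.Agent.R108

namespace LemH

universe u

variable {X : Type u} [NormedAddCommGroup X] [NormedSpace ℝ X]

/-- strong recursion choice -/
theorem exists_seq_strong {α : Type u} (Q : ∀ r : ℕ, (Fin r → α) → α → Prop)
    (h : ∀ r prev, ∃ a, Q r prev a) : ∃ s : ℕ → α, ∀ r, Q r (fun i => s i) (s r) := by
  classical
  choose F hF using h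
  let s : ℕ → α := WellFounded.fix (C := fun _ => α) Nat.lt_wfRel.wf
    (fun r ih => F r (fun i => ih i i.2))
  refine ⟨s, fun r => ?_⟩
  have : s r = F r (fun i => s i) := by
    simp only [s]
    rw [WellFounded.fix_eq]
  rw [this]
  exact hF r _

/-- super-exponentially decreasing scales -/
noncomputable def sc (k : ℕ) : ℝ := (1 / 2 : ℝ) ^ (k ^ 2)

theorem sc_pos (k : ℕ) : 0 < sc k := by unfold sc; positivity

theorem sc_le (k j : ℕ) : sc (k + 1 + j) ≤ sc k * (1 / 4) ^ k * (1 / 2) * (1 / 2) ^ j := by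
  unfold sc
  have h1 : (1 / 4 : ℝ) ^ k = (1 / 2 : ℝ) ^ (2 * k) := by
    rw [pow_mul]; norm_num
  rw [h1, ← pow_add]
  have h2 : (1 / 2 : ℝ) ^ (k ^ 2 + 2 * k) * (1 / 2) * (1 / 2) ^ j
      = (1 / 2 : ℝ) ^ (k ^ 2 + 2 * k + 1 + j) := by
    rw [pow_add _ (k ^ 2 + 2 * k + 1) j, pow_add _ (k ^ 2 + 2 * k) 1, pow_one]
  rw [h2]
  apply pow_le_pow_of_le_one (by norm_num) (by norm_num)
  nlinarith [Nat.zero_le (k * j), Nat.zero_le (j ^ 2), Nat.zero_le j]

theorem sc_summable : Summable sc := by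
  rw [← summable_nat_add_iff 1]
  refine Summable.of_nonneg_of_le (fun j => (sc_pos _).le) (fun j => ?_)
    (summable_geometric_of_lt_one (by norm_num : (0 : ℝ) ≤ 1 / 2) (by norm_num))
  have := sc_le 0 j
  have h0 : sc 0 = 1 := by simp [sc]
  rw [h0] at this
  have e : 0 + 1 + j = j + 1 := by ring
  rw [e] at this
  have hp : (0 : ℝ) ≤ (1 / 2) ^ j := by positivity
  calc sc (j + 1) ≤ 1 * (1 / 4) ^ 0 * (1 / 2) * (1 / 2) ^ j := this
    _ ≤ (1 / 2) ^ j := by simp only [pow_zero]; linarith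

theorem sc_tail (k : ℕ) : ∑' j, sc (k + 1 + j) ≤ sc k / (k + 1) := by
  have hs : Summable fun j : ℕ => sc k * (1 / 4) ^ k * (1 / 2) * (1 / 2 : ℝ) ^ j :=
    (summable_geometric_of_lt_one (by norm_num) (by norm_num)).mul_left _
  have hs' : Summable fun j : ℕ => sc (k + 1 + j) := by
    have := (summable_nat_add_iff (k + 1)).2 sc_summable
    simpa [add_comm, add_left_comm, add_assoc] using this
  have h1 : ∑' j, sc (k + 1 + j) ≤ ∑' j : ℕ, sc k * (1 / 4) ^ k * (1 / 2) * (1 / 2 : ℝ) ^ j :=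
    Summable.tsum_le_tsum (sc_le k) hs' hs
  rw [tsum_mul_left, tsum_geometric_two] at h1
  have h2 : ((k : ℝ) + 1) * (1 / 4) ^ k ≤ 1 := by
    have : ((k : ℝ) + 1) ≤ 4 ^ k := by
      have := one_add_mul_le_pow (a := (3 : ℝ)) (by norm_num) k
      have hk : (0 : ℝ) ≤ k := Nat.cast_nonneg k
      norm_num at this
      linarith
    have h4 : (0 : ℝ) < 4 ^ k := by positivity
    rw [one_div, inv_pow]
    rw [mul_inv_le_iff₀ h4]
    linarith
  have hk : (0 : ℝ) < (k : ℝ) + 1 := by positivity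
  refine h1.trans ?_
  rw [le_div_iff₀ hk]
  have := sc_pos k
  nlinarith

/-- scales: `1-ε` for the direction `x₀`, then `ε * sc k` -/
noncomputable def scl (ε : ℝ) (k : ℕ) : ℝ := if k = 0 then 1 - ε else ε * sc k

theorem scl_zero (ε : ℝ) : scl ε 0 = 1 - ε := by simp [scl]

theorem scl_succ (ε : ℝ) (k : ℕ) : scl ε (k + 1) = ε * sc (k + 1) := by simp [scl]

theorem scl_pos {ε : ℝ} (h0 : 0 < ε) (h1 : ε < 1) (k : ℕ) : 0 < scl ε k := by
  cases k with
  | zero => rw [scl_zero]; linarith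
  | succ k => rw [scl_succ]; exact mul_pos h0 (sc_pos _)

theorem scl_summable (ε : ℝ) : Summable (scl ε) := by
  rw [← summable_nat_add_iff 1]
  simp only [scl_succ]
  exact ((summable_nat_add_iff 1).2 sc_summable).mul_left ε

theorem scl_dyadic (s : ℕ) (k : ℕ) :
    ∃ a t : ℕ, scl ((1 / 2 : ℝ) ^ s) k = (a : ℝ) / 2 ^ t := by
  cases k with
  | zero =>
    refine ⟨2 ^ s - 1, s, ?_⟩
    have h1 : 1 ≤ 2 ^ s := Nat.one_le_two_pow
    have h2 : (0 : ℝ) < 2 ^ s := by positivity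
    rw [scl_zero, Nat.cast_sub h1]
    push_cast
    rw [one_div, inv_pow]
    field_simp
  | succ k =>
    refine ⟨1, s + (k + 1) ^ 2, ?_⟩
    rw [scl_succ, sc, ← pow_add, one_div, inv_pow]
    simp

/-- finite tail estimate of the scales -/
theorem scl_tail {ε : ℝ} (h0 : 0 < ε) (k : ℕ) (hk : 1 ≤ k) (n : ℕ) :
    ∑ j ∈ Finset.range n, scl ε (k + 1 + j) ≤ scl ε k / (k + 1) := by
  obtain ⟨k', rfl⟩ : ∃ k', k = k' + 1 := ⟨k - 1, by omega⟩
  have e : ∀ j, scl ε (k' + 1 + 1 + j) = ε * sc (k' + 1 + 1 + j) := by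
    intro j
    have : k' + 1 + 1 + j = (k' + 1 + j) + 1 := by ring
    rw [this, scl_succ]
  simp only [e]
  rw [← Finset.mul_sum, scl_succ]
  have hs' : Summable fun j : ℕ => sc (k' + 1 + 1 + j) := by
    have := (summable_nat_add_iff (k' + 1 + 1)).2 sc_summable
    simpa [add_comm, add_left_comm, add_assoc] using this
  have := (hs'.sum_le_tsum (Finset.range n) (fun j _ => (sc_pos _).le)).trans (sc_tail (k' + 1))
  rw [mul_div_assoc]
  exact mul_le_mul_of_nonneg_left this h0.le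

theorem scl_tail_zero {ε : ℝ} (h0 : 0 < ε) (n : ℕ) : ∑ j ∈ Finset.range n, scl ε (j + 1) ≤ ε := by
  simp only [scl_succ]
  rw [← Finset.mul_sum]
  have := sc_tail 0
  have h0' : sc 0 = 1 := by simp [sc]
  rw [h0'] at this
  have e : ∀ j, sc (0 + 1 + j) = sc (j + 1) := fun j => by congr 1; ring
  simp only [e] at this
  have h1 : ∑' j, sc (j + 1) ≤ 1 := by simpa using this
  have h2 := (((summable_nat_add_iff 1).2 sc_summable).sum_le_tsum (Finset.range n)
    (fun j _ => (sc_pos _).le)).trans h1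
  nlinarith

theorem scl_sum_le {ε : ℝ} (h0 : 0 < ε) (n : ℕ) :
    ∑ j ∈ Finset.range n, scl ε j ≤ 1 := by
  cases n with
  | zero => simp
  | succ n =>
    rw [Finset.sum_range_succ', scl_zero]
    have := scl_tail_zero h0 n
    linarith

/-- finite convex combinations based at `p` -/
theorem mem_finset {K : Set X} (hK : Convex ℝ K) {p : X} (hp : p ∈ K) (x : ℕ → X)
    (hx : ∀ j, x j ∈ K) (s : Finset ℕ) (a : ℕ → ℝ) (ha : ∀ j ∈ s, 0 ≤ a j)
    (hs : ∑ j ∈ s, a j ≤ 1) : p + ∑ j ∈ s, a j • (x j - p) ∈ K := by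
  by_cases ht : ∑ j ∈ s, a j = 0
  · have h0 : ∀ j ∈ s, a j = 0 := (Finset.sum_eq_zero_iff_of_nonneg ha).1 ht
    have : ∑ j ∈ s, a j • (x j - p) = 0 :=
      Finset.sum_eq_zero fun j hj => by rw [h0 j hj, zero_smul]
    rw [this, add_zero]; exact hp
  · set t := ∑ j ∈ s, a j with htdef
    have ht0 : 0 ≤ t := Finset.sum_nonneg ha
    have htpos : 0 < t := lt_of_le_of_ne ht0 (Ne.symm ht)
    have hy : ∑ j ∈ s, (a j / t) • x j ∈ K := by
      apply hK.sum_mem (fun j hj => div_nonneg (ha j hj) ht0)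
      · rw [← Finset.sum_div, ← htdef, div_self ht]
      · intro j _; exact hx j
    have h1 : p + ∑ j ∈ s, a j • (x j - p) = (1 - t) • p + t • ∑ j ∈ s, (a j / t) • x j := by
      have : ∑ j ∈ s, a j • (x j - p) = ∑ j ∈ s, a j • x j - t • p := by
        rw [htdef, Finset.sum_smul, ← Finset.sum_sub_distrib]
        exact Finset.sum_congr rfl fun j _ => smul_sub _ _ _
      rw [this, Finset.smul_sum]
      have : ∀ j ∈ s, t • (a j / t) • x j = a j • x j := by
        intro j _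
        rw [smul_smul, mul_div_cancel₀ _ ht]
      rw [Finset.sum_congr rfl this, sub_smul, one_smul]
      abel
    rw [h1]
    exact hK hp hy (by linarith) ht0 (by ring)

/-- splitting a sum at the index `k` -/
theorem sum_split (x : ℕ → X) (p : X) (b : ℕ → ℝ) (k N : ℕ) :
    ∑ j ∈ Finset.range (k + 1 + N), b j • (x j - p)
      = ∑ j ∈ Finset.range k, b j • (x j - p) + b k • (x k - p)
        + ∑ i ∈ Finset.range N, b (k + 1 + i) • (x (k + 1 + i) - p) := by
  rw [Finset.sum_range_add, Finset.sum_range_succ]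

theorem mem_split {K : Set X} (hK : Convex ℝ K) {p : X} (hp : p ∈ K) (x : ℕ → X)
    (hx : ∀ j, x j ∈ K) {ε : ℕ → ℝ} (hsum : ∀ n, ∑ j ∈ Finset.range n, ε j ≤ 1)
    (b : ℕ → ℝ) (hb0 : ∀ j, 0 ≤ b j) (hb1 : ∀ j, b j ≤ ε j) (k N : ℕ) (s : ℝ) (hs0 : 0 ≤ s)
    (hs1 : s ≤ ε k) :
    p + (∑ j ∈ Finset.range k, b j • (x j - p) + s • (x k - p)
        + ∑ i ∈ Finset.range N, b (k + 1 + i) • (x (k + 1 + i) - p)) ∈ K := by
  classical
  set c : ℕ → ℝ := Function.update b k s with hc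
  have hc0 : ∀ j, 0 ≤ c j := by
    intro j
    by_cases h : j = k
    · subst h; simp [hc, hs0]
    · simp [hc, Function.update_of_ne h, hb0 j]
  have hc1 : ∀ j, c j ≤ ε j := by
    intro j
    by_cases h : j = k
    · subst h; simp [hc, hs1]
    · simp [hc, Function.update_of_ne h, hb1 j]
  have h1 := mem_finset hK hp x hx (Finset.range (k + 1 + N)) c (fun j _ => hc0 j)
    ((Finset.sum_le_sum fun j _ => hc1 j).trans (hsum _))
  rw [sum_split] at h1
  have e1 : ∑ j ∈ Finset.range k, c j • (x j - p) = ∑ j ∈ Finset.range k, b j • (x j - p) := by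
    apply Finset.sum_congr rfl
    intro j hj
    have : j ≠ k := (Finset.mem_range.1 hj).ne
    rw [hc, Function.update_of_ne this]
  have e2 : c k = s := by simp [hc]
  have e3 : ∑ i ∈ Finset.range N, c (k + 1 + i) • (x (k + 1 + i) - p)
      = ∑ i ∈ Finset.range N, b (k + 1 + i) • (x (k + 1 + i) - p) := by
    apply Finset.sum_congr rfl
    intro i _
    have : k + 1 + i ≠ k := by omega
    rw [hc, Function.update_of_ne this]
  rw [e1, e2, e3] at h1
  exact h1

/-- norm bound of a finite sum -/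
theorem norm_sum_le' {K : Set X} (hdiam : ∀ x ∈ K, ∀ y ∈ K, ‖x - y‖ ≤ 1) {p : X} (hp : p ∈ K)
    (x : ℕ → X) (hx : ∀ j, x j ∈ K) (ε : ℕ → ℝ) (b : ℕ → ℝ) (hb0 : ∀ j, 0 ≤ b j)
    (hb1 : ∀ j, b j ≤ ε j) (s : Finset ℕ) (σ : ℕ → ℕ) :
    ‖∑ i ∈ s, b (σ i) • (x (σ i) - p)‖ ≤ ∑ i ∈ s, ε (σ i) := by
  refine (norm_sum_le _ _).trans (Finset.sum_le_sum fun i _ => ?_)
  rw [norm_smul, Real.norm_of_nonneg (hb0 _)]
  have h1 := hdiam _ (hx (σ i)) _ hp
  have h2 := hb0 (σ i)
  have h3 := hb1 (σ i)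
  nlinarith

/-- the distance from `y` to `h + e (y - p)`. -/
theorem dist_shift {K : Set X} (hdiam : ∀ x ∈ K, ∀ y ∈ K, ‖x - y‖ ≤ 1) {p : X} (hp : p ∈ K)
    (x : ℕ → X) (hx : ∀ j, x j ∈ K) (b : ℕ → ℝ) (hb0 : ∀ j, 0 ≤ b j) (k : ℕ) (e : ℝ) 
    (hbe : ∑ j ∈ Finset.range k, b j + e ≤ 1) (y : X) (hy : y ∈ K) :
    ‖y - (p + ∑ j ∈ Finset.range k, b j • (x j - p) + e • (y - p))‖ ≤ 1 - e := by
  have h1 : y - (p + ∑ j ∈ Finset.range k, b j • (x j - p) + e • (y - p))
      = ∑ j ∈ Finset.range k, b j • (y - x j)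
        + (1 - e - ∑ j ∈ Finset.range k, b j) • (y - p) := by
    have : ∑ j ∈ Finset.range k, b j • (y - x j)
        = (∑ j ∈ Finset.range k, b j) • (y - p) - ∑ j ∈ Finset.range k, b j • (x j - p) := by
      rw [Finset.sum_smul, ← Finset.sum_sub_distrib]
      apply Finset.sum_congr rfl
      intro j _
      rw [← smul_sub]
      congr 1
      abel
    rw [this]
    module
  rw [h1]
  have h2 : ‖∑ j ∈ Finset.range k, b j • (y - x j)‖ ≤ ∑ j ∈ Finset.range k, b j := by
    refine (norm_sum_le _ _).trans (Finset.sum_le_sum fun j _ => ?_)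
    rw [norm_smul, Real.norm_of_nonneg (hb0 _)]
    have := hdiam _ hy _ (hx j)
    have h2 := hb0 j
    nlinarith
  have h3 : ‖(1 - e - ∑ j ∈ Finset.range k, b j) • (y - p)‖
      ≤ 1 - e - ∑ j ∈ Finset.range k, b j := by
    have h0 : 0 ≤ 1 - e - ∑ j ∈ Finset.range k, b j := by linarith
    rw [norm_smul, Real.norm_of_nonneg h0]
    have := hdiam _ hy _ hp
    nlinarith
  calc _ ≤ _ := norm_add_le _ _
    _ ≤ _ := add_le_add h2 h3
    _ = 1 - e := by ring


/-- algebraic core of the estimate -/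
theorem arith_core (e r a b c d1 d2 : ℝ) (hb : b ≤ e / r + (1 - e))
    (ha : 1 - e / r ≤ a) (hc : c = a - b) (hd1 : |d1| ≤ e / r) (hd2 : |d2| ≤ e / r) :
    e * (1 - 4 / r) ≤ c + d1 - d2 := by
  have h1 := (abs_le.1 hd1).1
  have h2 := (abs_le.1 hd2).2
  have : e * (1 - 4 / r) = e - 4 * (e / r) := by ring
  rw [this]; linarith

variable [CompleteSpace X]

/-- the estimate for a deep direction -/
theorem deep_estimate (D : Data X) (z : X → X) (hzK : MapsTo z D.K D.K)
    (hzne : ∀ a ∈ D.K, ∀ b ∈ D.K, ‖z a - z b‖ ≤ ‖a - b‖) {ε : ℝ} (hε : 0 < ε) (hε1 : ε < 1)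
    (x : ℕ → X) (hx : ∀ j, x j ∈ D.K) (φ : X →L[ℝ] ℝ) (hφ : ‖φ‖ ≤ 1) (k : ℕ) (hk : 1 ≤ k)
    (r : ℝ) (hr : 0 < r) (hrk : r ≤ k + 1)
    (hfix : ‖z (x k) - x k‖ ≤ scl ε k / r)
    (hfar : ∀ b : ℕ → ℝ, (∀ j, 0 ≤ b j) → (∀ j, b j ≤ scl ε j) →
      1 - scl ε k / r < φ (x k - z (D.p + ∑ i : Fin k, b i • (x i - D.p)))) :
    ∀ w ∈ Quot z D.p x (scl ε) k, 1 - 4 / r ≤ φ w := by
  rintro w ⟨h, ⟨n, a, ha0, ha1, hak, rfl⟩, rfl⟩
  set e := scl ε k with he
  have hepos : 0 < e := scl_pos hε hε1 k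
  -- extend by zero
  set b : ℕ → ℝ := fun j => if j < n then a j else 0 with hb
  have hb0 : ∀ j, 0 ≤ b j := by
    intro j; simp only [hb]; split_ifs
    · exact ha0 j
    · exact le_rfl
  have hb1 : ∀ j, b j ≤ scl ε j := by
    intro j; simp only [hb]; split_ifs
    · exact ha1 j
    · exact (scl_pos hε hε1 j).le
  have hbk : b k = 0 := by
    simp only [hb]; split_ifs
    · exact hak
    · rfl
  have hsumeq : ∑ j ∈ Finset.range n, a j • (x j - D.p)
      = ∑ j ∈ Finset.range (k + 1 + n), b j • (x j - D.p) := by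
    have h1 : ∑ j ∈ Finset.range n, a j • (x j - D.p)
        = ∑ j ∈ Finset.range n, b j • (x j - D.p) := by
      apply Finset.sum_congr rfl
      intro j hj
      simp only [hb, Finset.mem_range.1 hj, if_true]
    rw [h1]
    apply Finset.sum_subset
    · intro j hj
      rw [Finset.mem_range] at hj ⊢
      omega
    · intro j _ hj
      rw [Finset.mem_range] at hj
      simp only [hb, hj, if_false, zero_smul]
  set P1 := ∑ j ∈ Finset.range k, b j • (x j - D.p) with hP1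
  set Tl := ∑ i ∈ Finset.range n, b (k + 1 + i) • (x (k + 1 + i) - D.p) with hTl
  have hsplit : ∑ j ∈ Finset.range n, a j • (x j - D.p) = P1 + Tl := by
    rw [hsumeq, sum_split, hbk, zero_smul, add_zero]
  have hTlnorm : ‖Tl‖ ≤ e / r := by
    refine (norm_sum_le' D.diam_le D.hp x hx (scl ε) b hb0 hb1 _ (fun i => k + 1 + i)).trans ?_
    refine (scl_tail hε k hk n).trans ?_
    exact div_le_div_of_nonneg_left hepos.le hr hrk
  have hsum1 : ∀ n, ∑ j ∈ Finset.range n, scl ε j ≤ 1 := scl_sum_le hε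
  have hm : ∀ N s, 0 ≤ s → s ≤ scl ε k → D.p + (P1 + s • (x k - D.p)
        + ∑ i ∈ Finset.range N, b (k + 1 + i) • (x (k + 1 + i) - D.p)) ∈ D.K :=
    fun N s h0 h1 => mem_split D.convex D.hp x hx hsum1 b hb0 hb1 k N s h0 h1
  -- the four points
  have m1 : D.p + P1 ∈ D.K := by
    have := hm 0 0 le_rfl hepos.le
    simpa using this
  have m2 : D.p + P1 + e • (x k - D.p) ∈ D.K := by
    have := hm 0 e hepos.le le_rfl
    simpa [add_assoc] using this
  have m3 : D.p + (P1 + Tl) ∈ D.K := by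
    have := hm n 0 le_rfl hepos.le
    simpa using this
  have m4 : D.p + (P1 + Tl) + e • (x k - D.p) ∈ D.K := by
    have := hm n e hepos.le le_rfl
    have e1 : D.p + (P1 + Tl) + e • (x k - D.p) = D.p + (P1 + e • (x k - D.p) + Tl) := by abel
    rw [e1]; exact this
  rw [hsplit]
  have hφb : ∀ y : X, |φ y| ≤ ‖y‖ := fun y =>
    ((φ.le_opNorm y).trans (by nlinarith [norm_nonneg y]))
  have hA : 1 - e / r ≤ φ (x k - z (D.p + P1)) := by
    have := hfar b hb0 hb1
    rw [Fin.sum_univ_eq_sum_range (fun j => b j • (x j - D.p)) k] at this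
    exact this.le
  have hB : φ (x k - z (D.p + P1 + e • (x k - D.p))) ≤ e / r + (1 - e) := by
    have h1 : ‖x k - z (D.p + P1 + e • (x k - D.p))‖ ≤ e / r + (1 - e) := by
      have h2 : x k - z (D.p + P1 + e • (x k - D.p))
          = -(z (x k) - x k) + (z (x k) - z (D.p + P1 + e • (x k - D.p))) := by abel
      rw [h2]
      refine (norm_add_le _ _).trans (add_le_add ?_ ?_)
      · rw [norm_neg]; exact hfix
      · refine (hzne _ (hx k) _ m2).trans ?_
        apply dist_shift D.diam_le D.hp x hx b hb0 k e ?_ (x k) (hx k)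
        have h3 : ∑ j ∈ Finset.range k, b j + e ≤ ∑ j ∈ Finset.range (k + 1), scl ε j := by
          rw [Finset.sum_range_succ]
          exact add_le_add (Finset.sum_le_sum fun j _ => hb1 j) le_rfl
        exact h3.trans (hsum1 _)
    exact (le_abs_self _).trans ((hφb _).trans h1)
  have hD1 : |φ (z (D.p + (P1 + Tl) + e • (x k - D.p)) - z (D.p + P1 + e • (x k - D.p)))|
      ≤ e / r := by
    refine (hφb _).trans ((hzne _ m4 _ m2).trans ?_)
    have : D.p + (P1 + Tl) + e • (x k - D.p) - (D.p + P1 + e • (x k - D.p)) = Tl := by abel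
    rw [this]; exact hTlnorm
  have hD2 : |φ (z (D.p + (P1 + Tl)) - z (D.p + P1))| ≤ e / r := by
    refine (hφb _).trans ((hzne _ m3 _ m1).trans ?_)
    have : D.p + (P1 + Tl) - (D.p + P1) = Tl := by abel
    rw [this]; exact hTlnorm
  have key := arith_core e r _ _ _ _ _ hB hA rfl hD1 hD2
  have heq : φ (x k - z (D.p + P1)) - φ (x k - z (D.p + P1 + e • (x k - D.p)))
      + φ (z (D.p + (P1 + Tl) + e • (x k - D.p)) - z (D.p + P1 + e • (x k - D.p)))
      - φ (z (D.p + (P1 + Tl)) - z (D.p + P1))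
      = φ (z (D.p + (P1 + Tl) + e • (x k - D.p)) - z (D.p + (P1 + Tl))) := by
    simp only [map_sub]; ring
  rw [heq] at key
  rw [map_smul, smul_eq_mul]
  rw [← div_eq_inv_mul, le_div_iff₀ hepos]
  linarith

/-- the chord estimate -/
theorem chord_estimate (D : Data X) (z : X → X) (hzK : MapsTo z D.K D.K)
    (hzne : ∀ a ∈ D.K, ∀ b ∈ D.K, ‖z a - z b‖ ≤ ‖a - b‖) {ε : ℝ} (hε : 0 < ε) (hε2 : ε ≤ 1 / 2)
    (x : ℕ → X) (hx : ∀ j, x j ∈ D.K) :
    ∀ w ∈ Quot z D.p x (scl ε) 0, ‖w - (z (x 0) - z D.p)‖ ≤ 8 * ε := by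
  rintro w ⟨h, ⟨n, a, ha0, ha1, hak, rfl⟩, rfl⟩
  have hε1 : ε < 1 := by linarith
  have he : scl ε 0 = 1 - ε := scl_zero ε
  set b : ℕ → ℝ := fun j => if j < n then a j else 0 with hb
  have hb0 : ∀ j, 0 ≤ b j := by
    intro j; simp only [hb]; split_ifs
    · exact ha0 j
    · exact le_rfl
  have hb1 : ∀ j, b j ≤ scl ε j := by
    intro j; simp only [hb]; split_ifs
    · exact ha1 j
    · exact (scl_pos hε hε1 j).le
  have hbk : b 0 = 0 := by
    simp only [hb]; split_ifs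
    · exact hak
    · rfl
  have hsumeq : ∑ j ∈ Finset.range n, a j • (x j - D.p)
      = ∑ j ∈ Finset.range (0 + 1 + n), b j • (x j - D.p) := by
    have h1 : ∑ j ∈ Finset.range n, a j • (x j - D.p)
        = ∑ j ∈ Finset.range n, b j • (x j - D.p) := by
      apply Finset.sum_congr rfl
      intro j hj
      simp only [hb, Finset.mem_range.1 hj, if_true]
    rw [h1]
    apply Finset.sum_subset
    · intro j hj
      rw [Finset.mem_range] at hj ⊢
      omega
    · intro j _ hj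
      rw [Finset.mem_range] at hj
      simp only [hb, hj, if_false, zero_smul]
  set Tl := ∑ i ∈ Finset.range n, b (0 + 1 + i) • (x (0 + 1 + i) - D.p) with hTl
  have hsplit : ∑ j ∈ Finset.range n, a j • (x j - D.p) = Tl := by
    rw [hsumeq, sum_split, hbk, zero_smul, add_zero, Finset.range_zero, Finset.sum_empty, zero_add]
  have hTlnorm : ‖Tl‖ ≤ ε := by
    refine (norm_sum_le' D.diam_le D.hp x hx (scl ε) b hb0 hb1 _ (fun i => 0 + 1 + i)).trans ?_
    have := scl_tail_zero hε n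
    have e1 : ∀ i, scl ε (0 + 1 + i) = scl ε (i + 1) := fun i => by congr 1; ring
    simp only [e1]
    exact this
  have hsum1 : ∀ n, ∑ j ∈ Finset.range n, scl ε j ≤ 1 := scl_sum_le hε
  have hm : ∀ N s, 0 ≤ s → s ≤ scl ε 0 → D.p + (∑ j ∈ Finset.range 0, b j • (x j - D.p)
        + s • (x 0 - D.p)
        + ∑ i ∈ Finset.range N, b (0 + 1 + i) • (x (0 + 1 + i) - D.p)) ∈ D.K :=
    fun N s h0 h1 => mem_split D.convex D.hp x hx hsum1 b hb0 hb1 0 N s h0 h1
  have m3 : D.p + Tl ∈ D.K := by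
    have := hm n 0 le_rfl (scl_pos hε hε1 0).le
    simpa using this
  have m4 : D.p + Tl + (1 - ε) • (x 0 - D.p) ∈ D.K := by
    have := hm n (1 - ε) (by linarith) (by rw [he])
    have e1 : D.p + Tl + (1 - ε) • (x 0 - D.p) = D.p + (∑ j ∈ Finset.range 0, b j • (x j - D.p)
        + (1 - ε) • (x 0 - D.p) + Tl) := by
      rw [Finset.range_zero, Finset.sum_empty]; abel
    rw [e1]; exact this
  rw [hsplit, he]
  set u := z (x 0) - z D.p with hu
  have hu1 : ‖u‖ ≤ 1 := (hzne _ (hx 0) _ D.hp).trans (D.diam_le _ (hx 0) _ D.hp)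
  set w := z (D.p + Tl + (1 - ε) • (x 0 - D.p)) - z (D.p + Tl) with hw
  have h1 : ‖z (D.p + Tl + (1 - ε) • (x 0 - D.p)) - z (x 0)‖ ≤ 2 * ε := by
    refine (hzne _ m4 _ (hx 0)).trans ?_
    have : D.p + Tl + (1 - ε) • (x 0 - D.p) - x 0 = Tl - ε • (x 0 - D.p) := by module
    rw [this]
    refine (norm_sub_le _ _).trans ?_
    rw [norm_smul, Real.norm_of_nonneg hε.le]
    have := D.diam_le _ (hx 0) _ D.hp
    nlinarith
  have h2 : ‖z (D.p + Tl) - z D.p‖ ≤ ε := by
    refine (hzne _ m3 _ D.hp).trans ?_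
    have : D.p + Tl - D.p = Tl := by abel
    rw [this]; exact hTlnorm
  have h3 : ‖w - u‖ ≤ 3 * ε := by
    have : w - u = (z (D.p + Tl + (1 - ε) • (x 0 - D.p)) - z (x 0)) - (z (D.p + Tl) - z D.p) := by
      rw [hw, hu]; abel
    rw [this]
    refine (norm_sub_le _ _).trans ?_
    linarith
  have hpos : 0 < 1 - ε := by linarith
  have h4 : (1 - ε)⁻¹ • w - u = (1 - ε)⁻¹ • ((w - u) + ε • u) := by
    have : u = (1 - ε)⁻¹ • ((1 - ε) • u) := by
      rw [smul_smul, inv_mul_cancel₀ hpos.ne', one_smul]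
    conv_lhs => rw [this]
    rw [← smul_sub]
    congr 1
    module
  rw [h4, norm_smul, norm_inv, Real.norm_of_nonneg hpos.le]
  have h5 : ‖(w - u) + ε • u‖ ≤ 4 * ε := by
    refine (norm_add_le _ _).trans ?_
    rw [norm_smul, Real.norm_of_nonneg hε.le]
    nlinarith
  rw [← div_eq_inv_mul, div_le_iff₀ hpos]
  nlinarith


/-- existence of the next deep direction -/
theorem next_dir (D : Data X) (g : ℕ → (X →L[ℝ] ℝ)) (hg : Norming D g)
    (A : X →L[ℝ] X) (hA : InA D g A) (m : ℕ) (k r : ℕ) (e : ℝ) (he : 0 < e) (sε : ℕ → ℝ)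
    (hsε : ∀ j, 0 ≤ sε j) (hsum : ∀ n, ∑ j ∈ Finset.range n, sε j ≤ 1)
    (prev : Fin k → X) (hprev : ∀ i, prev i ∈ D.K) :
    ∃ n, r ≤ n ∧ 1 - 1 / ((r : ℝ) + 1) < g n (A (D.f n - D.qb)) ∧
      ‖D.R m (D.f n) - D.f n‖ ≤ e / ((r : ℝ) + 1) ∧
      ∀ b : ℕ → ℝ, (∀ j, 0 ≤ b j) → (∀ j, b j ≤ sε j) →
      1 - e / ((r : ℝ) + 1) < (g n).comp A
        (D.f n - D.R m (D.p + ∑ i : Fin k, b i • (prev i - D.p))) := by
  classical
  have hr : (0 : ℝ) < (r : ℝ) + 1 := by positivity
  -- the compact box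
  set B : Set (Fin k → ℝ) := Set.pi Set.univ fun i => Icc 0 (sε i) with hB
  have hBc : IsCompact B := isCompact_univ_pi fun i => isCompact_Icc
  set h : (Fin k → ℝ) → X := fun b => D.p + ∑ i : Fin k, b i • (prev i - D.p) with hh
  have hcont : Continuous h := by
    apply Continuous.add continuous_const
    apply continuous_finsetSum
    intro i _
    exact (continuous_apply i).smul continuous_const
  have hmem : ∀ b ∈ B, h b ∈ D.K := by
    intro b hb
    have hb' : ∀ i : Fin k, 0 ≤ b i ∧ b i ≤ sε i := fun i => (hb i (mem_univ i))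
    -- extend to ℕ
    set x : ℕ → X := fun j => if hj : j < k then prev ⟨j, hj⟩ else D.p with hx
    set a : ℕ → ℝ := fun j => if hj : j < k then b ⟨j, hj⟩ else 0 with ha
    have h1 : ∑ i : Fin k, b i • (prev i - D.p) = ∑ j ∈ Finset.range k, a j • (x j - D.p) := by
      rw [← Fin.sum_univ_eq_sum_range (fun j => a j • (x j - D.p)) k]
      apply Finset.sum_congr rfl
      intro i _
      simp [ha, hx, i.2]
    simp only [hh]
    rw [h1]
    apply mem_finset D.convex D.hp x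
    · intro j
      simp only [hx]
      split_ifs with hj
      · exact hprev _
      · exact D.hp
    · intro j _
      simp only [ha]
      split_ifs with hj
      · exact (hb' _).1
      · exact le_rfl
    · refine le_trans ?_ (hsum k)
      apply Finset.sum_le_sum
      intro j hj
      have hj' := Finset.mem_range.1 hj
      simp only [ha, hj', dif_pos]
      exact (hb' ⟨j, hj'⟩).2
  set C : Set X := (fun b => D.R m (h b)) '' B with hC
  have hCc : IsCompact C := by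
    apply hBc.image_of_continuousOn
    have h1 : ContinuousOn (D.R m) D.K := by
      have : LipschitzOnWith 1 (D.R m) D.K := by
        apply LipschitzOnWith.of_dist_le_mul
        intro a ha b hb
        rw [dist_eq_norm, dist_eq_norm]
        simpa using D.nonexp m a ha b hb
      exact this.continuousOn
    exact h1.comp hcont.continuousOn hmem
  have hCK : C ⊆ D.K := by
    rintro _ ⟨b, hb, rfl⟩
    exact D.mapsTo m (hmem b hb)
  obtain ⟨η, hη, hU⟩ := lemU D C hCc hCK (e / ((r : ℝ) + 1)) (by positivity)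
  have hfix := D.fix m
  have hfix' : ∀ᶠ n in atTop, ‖D.R m (D.R n D.p) - D.R n D.p‖ < e / ((r : ℝ) + 1) := by
    apply (tendsto_order.1 hfix).2
    positivity
  obtain ⟨n1, hn1⟩ := eventually_atTop.1 hfix'
  obtain ⟨n, hn, hgn⟩ := hA.2 (min η (1 / ((r : ℝ) + 1))) (lt_min hη (by positivity)) (max r n1)
  refine ⟨n, le_trans (le_max_left _ _) hn, ?_, ?_, ?_⟩
  · have := min_le_right η (1 / ((r : ℝ) + 1))
    linarith
  · exact (hn1 n (le_trans (le_max_right _ _) hn)).le
  · intro b hb0 hb1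
    have hk1 : ‖(g n).comp A‖ ≤ 1 := by
      refine (ContinuousLinearMap.opNorm_comp_le _ _).trans ?_
      have h1 := (hg n).1
      have h2 := hA.1
      have h3 := norm_nonneg (g n)
      have h4 := norm_nonneg A
      nlinarith
    refine hU ((g n).comp A) hk1 (D.f n) (D.mapsTo n D.hp) ?_ _ ⟨fun i => b i, ?_, rfl⟩
    · have := min_le_left η (1 / ((r : ℝ) + 1))
      show 1 - η < g n (A (D.f n - D.qb))
      linarith
    · intro i _
      exact ⟨hb0 _, hb1 _⟩

/-- density of the span of the directions -/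
theorem dense_dirs (D : Data X) (x : ℕ → X) (hx : ∀ k, ∃ j, x j = D.d k) :
    (Submodule.span ℝ (Set.range (fun k => x k - D.p))).topologicalClosure = ⊤ := by
  set W := (Submodule.span ℝ (Set.range (fun k => x k - D.p))).topologicalClosure with hW
  have h1 : ∀ y ∈ D.K, y - D.p ∈ W := by
    intro y hy
    have hcl : IsClosed {y : X | y - D.p ∈ W} :=
      (Submodule.isClosed_topologicalClosure _).preimage (continuous_id.sub continuous_const)
    have hsub : Set.range D.d ⊆ {y : X | y - D.p ∈ W} := by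
      rintro _ ⟨k, rfl⟩
      obtain ⟨j, hj⟩ := hx k
      show D.d k - D.p ∈ W
      rw [← hj]
      exact Submodule.le_topologicalClosure _ (Submodule.subset_span ⟨j, rfl⟩)
    exact closure_minimal hsub hcl (D.hdense hy)
  have h2 : Submodule.span ℝ {v : X | ∃ x ∈ D.K, ∃ y ∈ D.K, v = x - y} ≤ W := by
    rw [Submodule.span_le]
    rintro _ ⟨a, ha, b, hb, rfl⟩
    have : a - b = (a - D.p) - (b - D.p) := by abel
    rw [this]
    exact W.sub_mem (h1 a ha) (h1 b hb)
  have h3 := Submodule.topologicalClosure_minimal _ h2 (Submodule.isClosed_topologicalClosure _)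
  rw [D.dense_span] at h3
  exact top_le_iff.1 h3

end LemH

open LemH in
/-- E3 (Lemma H, heredity), from the statement of `grad` (E2). -/
theorem lemH_of_grad {Y : Type*} [NormedAddCommGroup Y] [NormedSpace ℝ Y] [CompleteSpace Y]
    (grad : ∀ (K : Set Y) (_ : IsClosed K) (_ : Convex ℝ K)
      (_ : ∀ x ∈ K, ∀ y ∈ K, ‖x - y‖ ≤ 1) (p : Y) (_ : p ∈ K) (x : ℕ → Y) (_ : ∀ k, x k ∈ K)
      (ε : ℕ → ℝ) (_ : ∀ k, 0 < ε k) (_ : ∀ k, ∃ a s : ℕ, ε k = (a : ℝ) / 2 ^ s)
      (_ : ∀ n, ∑ j ∈ Finset.range n, ε j ≤ 1) (z : Y → Y) (_ : MapsTo z K K)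
      (_ : ∀ a ∈ K, ∀ b ∈ K, ‖z a - z b‖ ≤ ‖a - b‖)
      (_ : (Submodule.span ℝ (Set.range (fun k => x k - p))).topologicalClosure = ⊤),
      ∃ S : Y →L[ℝ] Y, ‖S‖ ≤ 1 ∧ ∀ k, S (x k - p) ∈ closure (convexHull ℝ (Quot z p x ε k)))
    (D : Data Y) (g : ℕ → (Y →L[ℝ] ℝ)) (hg : Norming D g)
    (A : Y →L[ℝ] Y) (hA : InA D g A) (m : ℕ) (x₀ : Y) (hx₀ : x₀ ∈ D.K) (ε : ℝ) (hε : 0 < ε)
    (hε2 : ε < 1 / 2) :
    ∃ S : Y →L[ℝ] Y, InA D g (A.comp S) ∧
      ‖S (x₀ - D.p) - (D.R m x₀ - D.R m D.p)‖ ≤ 8 * ε := by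
  classical
  obtain ⟨s, hs⟩ : ∃ s : ℕ, (1 / 2 : ℝ) ^ s < ε := exists_pow_lt_of_lt_one hε (by norm_num)
  set δ : ℝ := (1 / 2 : ℝ) ^ s with hδ
  have hδ0 : 0 < δ := by positivity
  have hδ1 : δ < 1 := by linarith
  -- construction of the directions
  obtain ⟨x, hx⟩ := exists_seq_strong (α := Y)
    (fun k prev a => a ∈ D.K ∧ (k = 0 → a = x₀) ∧ (∀ r, k = 2 * r + 1 → a = D.d r) ∧
      (∀ r, k = 2 * r + 2 → (∀ i, prev i ∈ D.K) → ∃ n, r ≤ n ∧ a = D.f n ∧
        1 - 1 / ((r : ℝ) + 1) < g n (A (D.f n - D.qb)) ∧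
      ‖D.R m (D.f n) - D.f n‖ ≤ scl δ k / ((r : ℝ) + 1) ∧
      ∀ b : ℕ → ℝ, (∀ j, 0 ≤ b j) → (∀ j, b j ≤ scl δ j) →
      1 - scl δ k / ((r : ℝ) + 1) < (g n).comp A
        (D.f n - D.R m (D.p + ∑ i : Fin k, b i • (prev i - D.p))))) (by
    intro k prev
    rcases Nat.eq_zero_or_pos k with rfl | hk
    · exact ⟨x₀, hx₀, fun _ => rfl, fun r hr => by omega, fun r hr => by omega⟩
    · rcases Nat.even_or_odd' k with ⟨c, hc | hc⟩
      · -- even, positive
        by_cases hprev : ∀ i, prev i ∈ D.K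
        · obtain ⟨n, h1, h2, h3, h4⟩ := next_dir D g hg A hA m k (c - 1) (scl δ k)
            (scl_pos hδ0 hδ1 k) (scl δ) (fun j => (scl_pos hδ0 hδ1 j).le) (scl_sum_le hδ0)
            prev hprev
          refine ⟨D.f n, D.mapsTo n D.hp, fun h => by omega, fun r hr => by omega, ?_⟩
          intro r hr _
          have hrc : r = c - 1 := by omega
          subst hrc
          exact ⟨n, h1, rfl, h2, h3, h4⟩
        · exact ⟨x₀, hx₀, fun h => by omega, fun r hr => by omega,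
            fun r hr h => absurd h hprev⟩
      · refine ⟨D.d c, D.hd c, fun h => by omega, fun r hr => ?_, fun r hr => by omega⟩
        congr 1; omega)
  have hxK : ∀ k, x k ∈ D.K := fun k => (hx k).1
  have hx0 : x 0 = x₀ := (hx 0).2.1 rfl
  have hxd : ∀ r, x (2 * r + 1) = D.d r := fun r => (hx (2 * r + 1)).2.2.1 r rfl
  have hxf := fun r => (hx (2 * r + 2)).2.2.2 r rfl (fun i => hxK i)
  choose n hn1 hn2 hn3 hn4 hn5 using hxf
  obtain ⟨S, hS1, hS2⟩ := grad D.K D.closed D.convex D.diam_le D.p D.hp x hxK (scl δ)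
    (scl_pos hδ0 hδ1) (scl_dyadic s) (scl_sum_le hδ0) (D.R m) (D.mapsTo m) (D.nonexp m)
    (dense_dirs D x fun k => ⟨2 * k + 1, hxd k⟩)
  have hnorm : ∀ j, ‖(g j).comp A‖ ≤ 1 := by
    intro j
    refine (ContinuousLinearMap.opNorm_comp_le _ _).trans ?_
    have h1 := (hg j).1
    have h2 := hA.1
    have h3 := norm_nonneg (g j)
    have h4 := norm_nonneg A
    nlinarith
  -- deep directions
  have hdeep : ∀ r : ℕ, 1 - 4 / ((r : ℝ) + 1) ≤ (g (n r)).comp A (S (D.f (n r) - D.p)) := by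
    intro r
    have hr : (0 : ℝ) < (r : ℝ) + 1 := by positivity
    set φ := (g (n r)).comp A with hφ
    have hq : ∀ w ∈ Quot (D.R m) D.p x (scl δ) (2 * r + 2), 1 - 4 / ((r : ℝ) + 1) ≤ φ w := by
      apply deep_estimate D (D.R m) (D.mapsTo m) (D.nonexp m) hδ0 hδ1 x hxK φ (hnorm _)
        (2 * r + 2) (by omega) _ hr
      · push_cast
        have : (0 : ℝ) ≤ r := Nat.cast_nonneg r
        linarith
      · rw [hn2 r]; exact hn4 r
      · intro b hb0 hb1
        rw [hn2 r]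
        exact hn5 r b hb0 hb1
    have hcl : closure (convexHull ℝ (Quot (D.R m) D.p x (scl δ) (2 * r + 2)))
        ⊆ {w | 1 - 4 / ((r : ℝ) + 1) ≤ φ w} := by
      apply closure_minimal
      · apply convexHull_min hq
        exact convex_halfSpace_ge φ.toLinearMap.isLinear _
      · exact isClosed_le continuous_const φ.continuous
    have := hcl (hS2 (2 * r + 2))
    rw [hn2 r] at this
    exact this
  refine ⟨S, ⟨?_, ?_⟩, ?_⟩
  · refine (ContinuousLinearMap.opNorm_comp_le _ _).trans ?_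
    have h2 := hA.1
    have h3 := norm_nonneg S
    have h4 := norm_nonneg A
    nlinarith
  · intro η hη n₀
    obtain ⟨η', hη', hsm⟩ := small_of_near D (S (D.p - D.qb)) (η / 2) (by linarith)
    obtain ⟨r1, hr1⟩ := exists_nat_gt (8 / η)
    obtain ⟨r2, hr2⟩ := exists_nat_gt (1 / η')
    set r := max n₀ (max r1 r2) with hrdef
    have hrr1 : (r1 : ℝ) ≤ r := by
      exact_mod_cast le_trans (le_max_left r1 r2) (le_max_right n₀ _)
    have hrr2 : (r2 : ℝ) ≤ r := by
      exact_mod_cast le_trans (le_max_right r1 r2) (le_max_right n₀ _)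
    have hr : (0 : ℝ) < (r : ℝ) + 1 := by positivity
    have h4r : 4 / ((r : ℝ) + 1) < η / 2 := by
      rw [div_lt_iff₀ hr]
      have : 8 / η < r + 1 := by linarith
      rw [div_lt_iff₀ hη] at this
      linarith
    have h1r : 1 / ((r : ℝ) + 1) < η' := by
      rw [div_lt_iff₀ hr]
      have : 1 / η' < r + 1 := by linarith
      rw [div_lt_iff₀ hη'] at this
      linarith
    refine ⟨n r, (le_max_left _ _).trans (hn1 r), ?_⟩
    have h1 := hdeep r
    have h2 := hsm ((g (n r)).comp A) (hnorm _) (D.f (n r)) (D.mapsTo _ D.hp) (by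
      have := hn3 r
      show 1 - η' < g (n r) (A (D.f (n r) - D.qb))
      linarith)
    have h3 : g (n r) ((A.comp S) (D.f (n r) - D.qb))
        = (g (n r)).comp A (S (D.f (n r) - D.p)) + (g (n r)).comp A (S (D.p - D.qb)) := by
      rw [← map_add, ← map_add]
      have : D.f (n r) - D.p + (D.p - D.qb) = D.f (n r) - D.qb := by abel
      rw [this]; rfl
    rw [h3]
    have h4 := (abs_lt.1 h2).1
    linarith
  · have hq := chord_estimate D (D.R m) (D.mapsTo m) (D.nonexp m) hδ0 (by linarith) x hxK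
    have hcl : closure (convexHull ℝ (Quot (D.R m) D.p x (scl δ) 0))
        ⊆ Metric.closedBall (D.R m (x 0) - D.R m D.p) (8 * δ) := by
      apply closure_minimal
      · apply convexHull_min
        · intro w hw
          rw [Metric.mem_closedBall, dist_eq_norm]
          exact hq w hw
        · exact convex_closedBall _ _
      · exact Metric.isClosed_closedBall
    have := hcl (hS2 0)
    rw [Metric.mem_closedBall, dist_eq_norm, hx0] at this
    linarith

end Crest.Agent.R108
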