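import Crest.Agent.R108.Defs
import Crest.Agent.R108.Weak

/-! # R108 (S0142), M1: minimal invariant sets. -/

set_option autoImplicit false

open Filter Topology Set

namespace Crest.Agent.R108

universe u

section Front

variable {X : Type u} [NormedAddCommGroup X] [NormedSpace ℝ X] [CompleteSpace X]

/-- M1. Zorn. -/
theorem exists_minimal (hX : Refl X) (C : Set X) (hC₁ : C.Nonempty) (hC₂ : IsClosed C)
    (hC₃ : Bornology.IsBounded C) (hC₄ : Convex ℝ C) (F : X → X) (hF₁ : Set.MapsTo F C C) :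
    ∃ K : Set X, K ⊆ C ∧ K.Nonempty ∧ IsClosed K ∧ Convex ℝ K ∧ MapsTo F K K ∧
      ∀ L : Set X, L ⊆ K → L.Nonempty → IsClosed L → Convex ℝ L → MapsTo F L L → L = K := by
  obtain ⟨K, hKC, hK, hmin⟩ := W229.exists_minimal hX (F := F) ⟨hC₁, hC₂, hC₄, hF₁⟩ hC₃
  exact ⟨K, hKC, hK.ne, hK.cl, hK.cv, hK.inv, fun L h1 h2 h3 h4 h5 => hmin L h1 ⟨h2, h3, h4, h5⟩⟩

end Front

end Crest.Agent.R108
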