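import Crest.Agent.R108.Defs
import Crest.Agent.R108.Weak

/-! # R108 (S0142), M2: minimal sets are separable. -/

set_option autoImplicit false

open Filter Topology Set

namespace Crest.Agent.R108

universe u

section Front

variable {X : Type u} [NormedAddCommGroup X] [NormedSpace ℝ X] [CompleteSpace X]

/-- M2. A minimal invariant set (nonexpansive map) is separable. -/
theorem minimal_separable (K : Set X) (hne : K.Nonempty) (hc : IsClosed K) (hconv : Convex ℝ K)
    (F : X → X) (hF : MapsTo F K K) (hFne : ∀ a ∈ K, ∀ b ∈ K, ‖F a - F b‖ ≤ ‖a - b‖)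
    (hmin : ∀ L : Set X, L ⊆ K → L.Nonempty → IsClosed L → Convex ℝ L → MapsTo F L L → L = K) :
    TopologicalSpace.IsSeparable K := by
  have hcont : ContinuousOn F K := by
    have hl : LipschitzOnWith 1 F K := LipschitzOnWith.of_dist_le_mul fun a ha b hb => by
      rw [dist_eq_norm, dist_eq_norm]; simpa using hFne a ha b hb
    exact hl.continuousOn
  obtain ⟨L, hLK, hL, hs⟩ := W229.exists_separable ⟨hne, hc, hconv, hF⟩ hcont
  rw [← hmin L hLK hL.ne hL.cl hL.cv hL.inv]
  exact hs

end Front

end Crest.Agent.R108
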