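import Crest.Agent.R108.Min3Build
import Crest.Agent.R108.Min1
import Crest.Agent.R108.Min2

/-!
# R108 (S0142): M3, passage to a minimal system on a separable reflexive space.
-/

set_option autoImplicit false

open Filter Topology Set

namespace Crest.Agent.R108

universe u

variable {X : Type u} [NormedAddCommGroup X] [NormedSpace ℝ X] [CompleteSpace X]

/-- M3. Passage to a minimal system on a separable reflexive space. -/
theorem exists_minSys (hX : Refl X) (C : Set X) (hC₁ : C.Nonempty) (hC₂ : IsClosed C)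
    (hC₃ : Bornology.IsBounded C) (hC₄ : Convex ℝ C) (F : X → X) (hF₁ : Set.MapsTo F C C)
    (hF₂ : ∀ a ∈ C, ∀ b ∈ C, ‖F a - F b‖ ≤ ‖a - b‖) (hfix : ∀ x ∈ C, F x ≠ x) :
    ∃ Y : Submodule ℝ X, IsClosed (Y : Set X) ∧ TopologicalSpace.SeparableSpace Y ∧
      Nonempty (MinSys Y) := by
  obtain ⟨K, hKC, hKne, hKc, hKconv, hKF, hKmin⟩ := exists_minimal hX C hC₁ hC₂ hC₃ hC₄ F hF₁
  have hFne : ∀ a ∈ K, ∀ b ∈ K, ‖F a - F b‖ ≤ ‖a - b‖ :=
    fun a ha b hb => hF₂ a (hKC ha) b (hKC hb)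
  have hsep : TopologicalSpace.IsSeparable K :=
    minimal_separable K hKne hKc hKconv F hKF hFne hKmin
  obtain ⟨p0, hp0⟩ := hKne
  exact ⟨Min3.spn K p0, Min3.spn_closed K p0, Min3.spn_separable K p0 hsep,
    Min3.build K hKc hKconv (hC₃.subset hKC) F hKF hFne
      (fun x hx => hfix x (hKC hx)) hKmin p0 hp0⟩

end Crest.Agent.R108
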