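import Crest.Agent.R108.Weak2
import Crest.Agent.R108.Min3
import Crest.Agent.R108.ExData
import Crest.Agent.R108.Core

set_option autoImplicit false

open Filter Topology Set

namespace Crest.Agent.R108

universe u

variable {X : Type u} [NormedAddCommGroup X] [NormedSpace ℝ X] [CompleteSpace X]

theorem main (hX : Refl X) (C : Set X) (hC₁ : C.Nonempty) (hC₂ : IsClosed C)
    (hC₃ : Bornology.IsBounded C) (hC₄ : Convex ℝ C) (F : X → X) (hF₁ : Set.MapsTo F C C)
    (hF₂ : ∀ a ∈ C, ∀ b ∈ C, ‖F a - F b‖ ≤ ‖a - b‖) :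
    ∃ x ∈ C, F x = x := by
  by_contra hcon
  have hcon' : ∀ x ∈ C, F x ≠ x := fun x hx h => hcon ⟨x, hx, h⟩
  obtain ⟨Y, hYc, hYs, ⟨M⟩⟩ := exists_minSys hX C hC₁ hC₂ hC₃ hC₄ F hF₁ hF₂ hcon'
  have := hYs
  have : CompleteSpace Y := hYc.completeSpace_coe
  have hY : Refl Y := refl_subspace hX Y hYc
  obtain ⟨D⟩ := exists_data hY M
  exact core hY D

end Crest.Agent.R108
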