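import Crest.Agent.R108.Defs

/-!
# R108 (S0142): M3 (construction), passage to a minimal system on a separable reflexive space.
-/

set_option autoImplicit false

open Filter Topology Set

namespace Crest.Agent.R108

universe u

namespace Min3

variable {X : Type u} [NormedAddCommGroup X] [NormedSpace ℝ X]

/-- the closed span of `K - p0` -/
noncomputable def spn (K : Set X) (p0 : X) : Submodule ℝ X :=
  (Submodule.span ℝ ((fun x => x - p0) '' K)).topologicalClosure

theorem spn_closed (K : Set X) (p0 : X) : IsClosed (spn K p0 : Set X) :=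
  Submodule.isClosed_topologicalClosure _

theorem mem_spn (K : Set X) (p0 : X) {x : X} (hx : x ∈ K) : x - p0 ∈ spn K p0 :=
  Submodule.le_topologicalClosure _ (Submodule.subset_span ⟨x, hx, rfl⟩)

theorem spn_separable (K : Set X) (p0 : X) (hK : TopologicalSpace.IsSeparable K) :
    TopologicalSpace.SeparableSpace (spn K p0) := by
  have h1 : TopologicalSpace.IsSeparable ((fun x => x - p0) '' K) :=
    hK.image (continuous_id.sub continuous_const)
  have h2 : TopologicalSpace.IsSeparable
      ((Submodule.span ℝ ((fun x => x - p0) '' K) : Submodule ℝ X) : Set X) := h1.span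
  have h3 : TopologicalSpace.IsSeparable (spn K p0 : Set X) := by
    unfold spn
    rw [Submodule.topologicalClosure_coe]
    exact h2.closure
  exact h3.separableSpace

/-- The affine parametrisation -/
def psi (K : Set X) (p0 : X) (d : ℝ) (y : spn K p0) : X := p0 + d • (y : X)

/-- inverse of the parametrisation on `K` -/
noncomputable def iot (K : Set X) (p0 : X) (d : ℝ) (x : X) : spn K p0 :=
  open Classical in
  if h : x ∈ K then ⟨d⁻¹ • (x - p0), (spn K p0).smul_mem _ (mem_spn K p0 h)⟩ else 0

theorem psi_iot (K : Set X) (p0 : X) (d : ℝ) (hd : 0 < d) {x : X} (hx : x ∈ K) :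
    psi K p0 d (iot K p0 d x) = x := by
  unfold psi iot
  rw [dif_pos hx]
  simp only
  rw [smul_smul, mul_inv_cancel₀ hd.ne', one_smul]
  abel

theorem psi_inj (K : Set X) (p0 : X) (d : ℝ) (hd : 0 < d) :
    Function.Injective (psi K p0 d) := by
  intro a b h
  unfold psi at h
  have h1 : d • (a : X) = d • (b : X) := add_left_cancel h
  have h2 : (a : X) = b := smul_right_injective X hd.ne' h1
  exact Subtype.ext h2

theorem psi_sub (K : Set X) (p0 : X) (d : ℝ) (a b : spn K p0) :
    psi K p0 d a - psi K p0 d b = d • ((a - b : spn K p0) : X) := by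
  unfold psi
  simp [smul_sub]

theorem norm_psi_sub (K : Set X) (p0 : X) (d : ℝ) (hd : 0 < d) (a b : spn K p0) :
    ‖psi K p0 d a - psi K p0 d b‖ = d * ‖a - b‖ := by
  rw [psi_sub, norm_smul, Real.norm_of_nonneg hd.le]
  rfl

theorem psi_comb (K : Set X) (p0 : X) (d : ℝ) (a b : spn K p0) (s t : ℝ) (hst : s + t = 1) :
    psi K p0 d (s • a + t • b) = s • psi K p0 d a + t • psi K p0 d b := by
  have ht : t = 1 - s := by linarith
  subst ht
  unfold psi
  push_cast
  module

theorem psi_continuous (K : Set X) (p0 : X) (d : ℝ) : Continuous (psi K p0 d) := by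
  unfold psi
  exact continuous_const.add (continuous_subtype_val.const_smul d)

theorem psi_closedMap (K : Set X) (p0 : X) (d : ℝ) (hd : 0 < d) :
    IsClosedMap (psi K p0 d) := by
  have h1 : IsClosedMap (Subtype.val : spn K p0 → X) := (spn_closed K p0).isClosedMap_subtype_val
  have h2 : IsClosedMap (fun x : X => d • x) :=
    (Homeomorph.smulOfNeZero d hd.ne').isClosedMap
  have h3 : IsClosedMap (fun x : X => p0 + x) := (Homeomorph.addLeft p0).isClosedMap
  exact h3.comp (h2.comp h1)

/-- Construction of the minimal system. -/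
theorem build (K : Set X) (hc : IsClosed K) (hconv : Convex ℝ K)
    (hb : Bornology.IsBounded K) (F : X → X) (hF : MapsTo F K K)
    (hFne : ∀ a ∈ K, ∀ b ∈ K, ‖F a - F b‖ ≤ ‖a - b‖)
    (hfix : ∀ x ∈ K, F x ≠ x)
    (hmin : ∀ L : Set X, L ⊆ K → L.Nonempty → IsClosed L → Convex ℝ L → MapsTo F L L → L = K)
    (p0 : X) (hp0 : p0 ∈ K) : Nonempty (MinSys (spn K p0)) := by
  -- positive diameter
  have hdist : ∀ x ∈ K, ∀ y ∈ K, ‖x - y‖ ≤ Metric.diam K := by
    intro x hx y hy
    rw [← dist_eq_norm]
    exact Metric.dist_le_diam_of_mem hb hx hy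
  obtain ⟨d, hd⟩ : ∃ d, d = Metric.diam K := ⟨_, rfl⟩
  rw [← hd] at hdist
  have hdpos : 0 < d := by
    by_contra hneg
    push Not at hneg
    have h1 := hdist (F p0) (hF hp0) p0 hp0
    have h2 : ‖F p0 - p0‖ = 0 := le_antisymm (h1.trans hneg) (norm_nonneg _)
    exact hfix p0 hp0 (sub_eq_zero.mp (norm_eq_zero.mp h2))
  have hpi : ∀ {x : X}, x ∈ K → psi K p0 d (iot K p0 d x) = x :=
    fun hx => psi_iot K p0 d hdpos hx
  refine ⟨{ K := psi K p0 d ⁻¹' K
            T := fun y => iot K p0 d (F (psi K p0 d y))
            nonempty := ?_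
            closed := ?_
            convex := ?_
            diam_le := ?_
            diam_ge := ?_
            mapsTo := ?_
            nonexp := ?_
            minimal := ?_
            dense_span := ?_ }⟩
  · exact ⟨iot K p0 d p0, by rw [mem_preimage, hpi hp0]; exact hp0⟩
  · exact hc.preimage (psi_continuous K p0 d)
  · intro a ha b hb' s t hs ht hst
    rw [mem_preimage, psi_comb K p0 d a b s t hst]
    exact hconv ha hb' hs ht hst
  · intro x hx y hy
    have h1 := hdist _ hx _ hy
    rw [norm_psi_sub K p0 d hdpos] at h1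
    by_contra hcon
    push Not at hcon
    nlinarith
  · intro c hc1
    by_contra hcon
    push Not at hcon
    have h1 : ∀ x ∈ K, ∀ y ∈ K, dist x y ≤ max c 0 * d := by
      intro x hx y hy
      have h2 := hcon (iot K p0 d x) (by rw [mem_preimage, hpi hx]; exact hx)
        (iot K p0 d y) (by rw [mem_preimage, hpi hy]; exact hy)
      have h3 := norm_psi_sub K p0 d hdpos (iot K p0 d x) (iot K p0 d y)
      rw [hpi hx, hpi hy] at h3
      rw [dist_eq_norm, h3, mul_comm]
      exact mul_le_mul_of_nonneg_right (h2.trans (le_max_left _ _)) hdpos.le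
    have h4 : Metric.diam K ≤ max c 0 * d :=
      Metric.diam_le_of_forall_dist_le (by positivity) h1
    rw [← hd] at h4
    have h5 : max c 0 < 1 := max_lt hc1 one_pos
    nlinarith
  · intro y hy
    rw [mem_preimage] at hy ⊢
    rw [hpi (hF hy)]
    exact hF hy
  · intro x hx y hy
    have h1 := hFne _ hx _ hy
    have h2 := norm_psi_sub K p0 d hdpos (iot K p0 d (F (psi K p0 d x)))
      (iot K p0 d (F (psi K p0 d y)))
    rw [hpi (hF hx), hpi (hF hy)] at h2
    rw [h2, norm_psi_sub K p0 d hdpos] at h1
    exact le_of_mul_le_mul_left h1 hdpos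
  · intro L hL hLne hLc hLconv hLT
    have hLK : psi K p0 d '' L = K := by
      apply hmin
      · rintro _ ⟨y, hy, rfl⟩
        exact hL hy
      · exact hLne.image _
      · exact psi_closedMap K p0 d hdpos L hLc
      · rintro _ ⟨a, ha, rfl⟩ _ ⟨b, hb', rfl⟩ s t hs ht hst
        refine ⟨s • a + t • b, hLconv ha hb' hs ht hst, ?_⟩
        exact psi_comb K p0 d a b s t hst
      · rintro _ ⟨y, hy, rfl⟩
        refine ⟨iot K p0 d (F (psi K p0 d y)), hLT hy, ?_⟩
        exact hpi (hF (hL hy))
    exact (preimage_image_eq L (psi_inj K p0 d hdpos)).symm.trans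
      (congrArg (fun S => psi K p0 d ⁻¹' S) hLK)
  · -- density
    rw [Submodule.eq_top_iff']
    intro y
    rw [← SetLike.mem_coe, Submodule.topologicalClosure_coe,
      Topology.IsInducing.subtypeVal.closure_eq_preimage_closure_image, mem_preimage]
    have hy : (y : X) ∈ closure
        ((Submodule.span ℝ ((fun x => x - p0) '' K) : Submodule ℝ X) : Set X) := by
      have := y.2
      unfold spn at this
      rw [← SetLike.mem_coe, Submodule.topologicalClosure_coe] at this
      exact this
    refine closure_mono ?_ hy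
    set S : Submodule ℝ (spn K p0) := Submodule.span ℝ
      {v : spn K p0 | ∃ x ∈ psi K p0 d ⁻¹' K, ∃ y ∈ psi K p0 d ⁻¹' K, v = x - y} with hS
    have h1 : Submodule.span ℝ ((fun x => x - p0) '' K) ≤ S.map (spn K p0).subtype := by
      rw [Submodule.span_le]
      rintro _ ⟨x, hx, rfl⟩
      refine ⟨d • (iot K p0 d x - iot K p0 d p0), ?_, ?_⟩
      · apply S.smul_mem
        apply Submodule.subset_span
        exact ⟨iot K p0 d x, by rw [mem_preimage, hpi hx]; exact hx,
          iot K p0 d p0, by rw [mem_preimage, hpi hp0]; exact hp0, rfl⟩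
      · have h2 := psi_sub K p0 d (iot K p0 d x) (iot K p0 d p0)
        rw [hpi hx, hpi hp0] at h2
        simp only [Submodule.subtype_apply, Submodule.coe_smul]
        exact h2.symm
    intro v hv
    obtain ⟨w, hw, hwv⟩ := h1 hv
    exact ⟨w, hw, hwv⟩

end Min3

end Crest.Agent.R108
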