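import Crest.Agent.R108.ClassG

set_option autoImplicit false

open Filter Topology Set

namespace Crest.Agent.R108

universe u

variable {Y : Type u} [NormedAddCommGroup Y] [NormedSpace ℝ Y] [CompleteSpace Y]

/-- G4. resolvent. -/
theorem resolvent (M : MinSys Y) (l : ℝ) (hl : 0 < l) (hl1 : l < 1) :
    ∃ z : Y → Y, InG M z ∧ ∀ x ∈ M.K, ‖M.T (z x) - z x‖ ≤ l := by
  obtain ⟨z, hz, hb⟩ := Coll.exists_resolvent (T := M.T) M.closed M.convex M.minInv.ne hl hl1.le
  refine ⟨z, (inG_iff M).2 hz, fun x hx => ?_⟩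
  rw [hb x hx]
  have := M.diam_le _ (M.mapsTo (hz.ne.maps hx)) _ hx
  nlinarith

end Crest.Agent.R108
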