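import Mathlib

/-!
Row 108, Step 5 (the `V`-bush argument): abstract version, all inputs are hypotheses.
-/

set_option autoImplicit false

namespace Crest.Agent.R108

open Filter Topology

/-- Step 5: the class `V = {± A (f m - p)}` contradicts the point of continuity property `hB`. -/
theorem step5 {X : Type*} [NormedAddCommGroup X] [NormedSpace ℝ X]
    (f : ℕ → X) (p qb : X) (g : ℕ → X →L[ℝ] ℝ) (R : ℕ → X → X)
    (hfp : ∀ j : X →L[ℝ] ℝ, Tendsto (fun n => j (f n)) atTop (𝓝 (j p)))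
    (hRp : ∀ m, R m p = f m)
    (hF2 : ∀ m, Tendsto (fun n => ‖R m (f n) - f n‖) atTop (𝓝 0))
    (hg : ∀ n, ‖g n‖ ≤ 1)
    (hbd : ∃ B : ℝ, ∀ n, ‖f n - p‖ ≤ B)
    (hid : ∀ η > 0, ∀ n0, ∃ n ≥ n0, 1 - η < g n (f n - qb))
    (hU : ∀ ε > 0, ∃ η > 0, ∀ κ : X →L[ℝ] ℝ, ‖κ‖ ≤ 1 → ∀ n, 1 - η ≤ κ (f n - qb) →
      1 - ε ≤ κ (f n - p))
    (hH : ∀ A : X →L[ℝ] X, ‖A‖ ≤ 1 → (∀ η > 0, ∀ n0, ∃ n ≥ n0, 1 - η < g n (A (f n - qb))) →
      ∀ m n : ℕ, ∀ ε : ℝ, 0 < ε → ε < 1 / 2 → ∃ S : X →L[ℝ] X, ‖A.comp S‖ ≤ 1 ∧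
        (∀ η > 0, ∀ n0, ∃ n ≥ n0, 1 - η < g n (A (S (f n - qb)))) ∧
        ‖S (f n - p) - (R m (f n) - R m p)‖ ≤ 8 * ε)
    (hB : ∀ V : Set X, V.Nonempty → Bornology.IsBounded V →
      (∀ v ∈ V, ∃ v' : ℕ → X, (∀ n, v' n ∈ V) ∧
        (∀ j : X →L[ℝ] ℝ, Tendsto (fun n => j (v' n)) atTop (𝓝 (j v))) ∧
        ∀ n, 1 / 2 ≤ ‖v' n - v‖) → False) : False := by
  classical
  obtain ⟨B, hBd⟩ := hbd
  let InA : (X →L[ℝ] X) → Prop := fun A => ‖A‖ ≤ 1 ∧
    ∀ η > 0, ∀ n0, ∃ n ≥ n0, 1 - η < g n (A (f n - qb))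
  refine hB {v | ∃ (A : X →L[ℝ] X) (m : ℕ) (s : ℝ), InA A ∧ |s| = 1 ∧ v = s • A (f m - p)} ?_ ?_ ?_
  · refine ⟨_, ContinuousLinearMap.id ℝ X, 0, 1, ⟨ContinuousLinearMap.norm_id_le, ?_⟩, by simp, rfl⟩
    intro η hη n0
    simpa using hid η hη n0
  · refine isBounded_iff_forall_norm_le.2 ⟨B, ?_⟩
    rintro v ⟨A, m, s, ⟨hA, -⟩, hs, rfl⟩
    rw [norm_smul, Real.norm_eq_abs, hs, one_mul]
    calc ‖A (f m - p)‖ ≤ ‖A‖ * ‖f m - p‖ := A.le_opNorm _
      _ ≤ 1 * ‖f m - p‖ := by gcongr
      _ ≤ B := by simpa using hBd m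
  · rintro v ⟨A, m, s, ⟨hA, hA2⟩, hs, rfl⟩
    have hs2 : s * s = 1 := by
      have := abs_mul_abs_self s
      rw [hs] at this; linarith
    -- choose the good indices
    obtain ⟨η₀, hη₀, hU₀⟩ := hU (1 / 8) (by norm_num)
    have hchoice : ∀ k : ℕ, ∃ n, k ≤ n ∧ 1 - η₀ < g n (A (f n - qb)) ∧
        ‖R m (f n) - f n‖ ≤ 1 / (k + 16 : ℝ) := by
      intro k
      have h1 : ∀ᶠ n in atTop, ‖R m (f n) - f n‖ < 1 / (k + 16 : ℝ) :=
        (hF2 m).eventually_lt_const (by positivity)
      obtain ⟨N, hN⟩ := eventually_atTop.1 h1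
      obtain ⟨n, hn, hn2⟩ := hA2 η₀ hη₀ (max N k)
      exact ⟨n, le_trans (le_max_right _ _) hn, hn2, (hN n (le_trans (le_max_left _ _) hn)).le⟩
    choose n hnk hng hnR using hchoice
    have hS : ∀ k : ℕ, ∃ S : X →L[ℝ] X, ‖A.comp S‖ ≤ 1 ∧
        (∀ η > 0, ∀ n0, ∃ n ≥ n0, 1 - η < g n (A (S (f n - qb)))) ∧
        ‖S (f (n k) - p) - (R m (f (n k)) - R m p)‖ ≤ 8 * (1 / (64 * (k + 1) : ℝ)) := by
      intro k
      refine hH A hA hA2 m (n k) _ (by positivity) ?_
      have : (1 : ℝ) / (64 * (k + 1)) ≤ 1 / 64 := by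
        apply one_div_le_one_div_of_le (by norm_num)
        have : (0 : ℝ) ≤ k := Nat.cast_nonneg k
        linarith
      linarith
    choose S hS1 hS2 hS3 using hS
    -- the error term
    let err : ℕ → X := fun k => S k (f (n k) - p) - (f (n k) - f m)
    have herr : ∀ k, ‖err k‖ ≤ 1 / (k + 16 : ℝ) + 8 * (1 / (64 * (k + 1) : ℝ)) := by
      intro k
      have : err k = (S k (f (n k) - p) - (R m (f (n k)) - R m p)) +
          (R m (f (n k)) - f (n k)) := by
        simp only [err, hRp]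
        abel
      rw [this]
      refine (norm_add_le _ _).trans ?_
      have := hS3 k
      have := hnR k
      linarith
    have herr0 : Tendsto (fun k => ‖err k‖) atTop (𝓝 0) := by
      refine squeeze_zero (fun _ => norm_nonneg _) herr ?_
      have h1 : Tendsto (fun k : ℕ => 1 / ((k : ℝ) + 16)) atTop (𝓝 0) := by
        have := (tendsto_one_div_add_atTop_nhds_zero_nat (𝕜 := ℝ))
        refine squeeze_zero (fun k => by positivity) (fun k => ?_) this
        apply one_div_le_one_div_of_le (by positivity)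
        linarith
      have h2 : Tendsto (fun k : ℕ => 8 * (1 / (64 * ((k : ℝ) + 1)))) atTop (𝓝 0) := by
        have := (tendsto_one_div_add_atTop_nhds_zero_nat (𝕜 := ℝ)).const_mul (8 / 64)
        rw [mul_zero] at this
        refine this.congr (fun k => ?_)
        field_simp
      simpa using h1.add h2
    have herr8 : ∀ k, ‖err k‖ ≤ 1 / 16 + 1 / 8 := by
      intro k
      refine (herr k).trans ?_
      have hk : (0 : ℝ) ≤ k := Nat.cast_nonneg k
      have h1 : (1 : ℝ) / (k + 16) ≤ 1 / 16 := by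
        apply one_div_le_one_div_of_le (by norm_num); linarith
      have h2 : (1 : ℝ) / (64 * (k + 1)) ≤ 1 / 64 := by
        apply one_div_le_one_div_of_le (by norm_num); linarith
      linarith
    refine ⟨fun k => (-s) • A (S k (f (n k) - p)), ?_, ?_, ?_⟩
    · intro k
      refine ⟨A.comp (S k), n k, -s, ⟨?_, ?_⟩, by simpa using hs, rfl⟩
      · exact hS1 k
      · intro η hη n0
        simpa using hS2 k η hη n0
    · intro j
      have key : ∀ k, (-s) • A (S k (f (n k) - p)) = s • A (f m - p) +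
          ((-s) • A (f (n k) - p) + (-s) • A (err k)) := by
        intro k
        have : S k (f (n k) - p) = (f (n k) - p) - (f m - p) + err k := by
          simp only [err]; abel
        rw [this]
        simp only [map_add, map_sub, smul_add, smul_sub, neg_smul]
        abel
      have h1 : Tendsto (fun k => j (A (f (n k) - p))) atTop (𝓝 0) := by
        have h := (hfp (j.comp A)).comp (tendsto_atTop_mono hnk tendsto_id)
        have h' := h.sub_const ((j.comp A) p)
        rw [sub_self] at h'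
        refine h'.congr (fun k => ?_)
        simp [map_sub]
      have h2 : Tendsto (fun k => j (A (err k))) atTop (𝓝 0) := by
        refine squeeze_zero_norm (a := fun k => ‖j.comp A‖ * ‖err k‖) (fun k => ?_) ?_
        · exact (j.comp A).le_opNorm _
        · simpa using herr0.const_mul ‖j.comp A‖
      have h3 := (tendsto_const_nhds (x := j (s • A (f m - p)))).add
        ((h1.const_mul (-s)).add (h2.const_mul (-s)))
      simp only [mul_zero, add_zero] at h3
      refine h3.congr (fun k => ?_)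
      show _ = j ((-s) • A (S k (f (n k) - p)))
      rw [key k]
      simp only [map_add, map_smul, smul_eq_mul]
    · intro k
      have hκ : ‖(g (n k)).comp A‖ ≤ 1 := by
        refine ((g (n k)).opNorm_comp_le A).trans ?_
        calc ‖g (n k)‖ * ‖A‖ ≤ 1 * 1 := by
              gcongr
              exact hg _
          _ = 1 := by norm_num
      have h1 : 1 - 1 / 8 ≤ g (n k) (A (f (n k) - p)) := by
        have := hU₀ ((g (n k)).comp A) hκ (n k) (by simpa using (hng k).le)
        simpa using this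
      have h2 : (1 : ℝ) - 1 / 8 ≤ ‖A (f (n k) - p)‖ := by
        refine h1.trans ((le_abs_self _).trans ?_)
        calc |g (n k) (A (f (n k) - p))| ≤ ‖g (n k)‖ * ‖A (f (n k) - p)‖ :=
              (g (n k)).le_opNorm _
          _ ≤ 1 * ‖A (f (n k) - p)‖ := by
              gcongr
              exact hg _
          _ = _ := one_mul _
      have key : (-s) • A (S k (f (n k) - p)) - s • A (f m - p) =
          (-s) • (A (f (n k) - p) + A (err k)) := by
        have : S k (f (n k) - p) = (f (n k) - p) - (f m - p) + err k := by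
          simp only [err]; abel
        rw [this]
        simp only [map_add, map_sub, smul_add, smul_sub, neg_smul]
        abel
      rw [key, norm_smul, Real.norm_eq_abs, abs_neg, hs, one_mul]
      have h3 : ‖A (err k)‖ ≤ 1 / 16 + 1 / 8 := by
        calc ‖A (err k)‖ ≤ ‖A‖ * ‖err k‖ := A.le_opNorm _
          _ ≤ 1 * ‖err k‖ := by gcongr
          _ ≤ _ := by simpa using herr8 k
      have h4 : ‖A (f (n k) - p)‖ - ‖A (err k)‖ ≤ ‖A (f (n k) - p) + A (err k)‖ := by
        have := norm_sub_norm_le (A (f (n k) - p)) (-(A (err k)))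
        simpa using this
      linarith

end Crest.Agent.R108
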