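import Crest.Agent.R108.Defs

/-!
# R108 (S0142), W1: closed bounded convex sets of a reflexive space are weakly compact.
-/

set_option autoImplicit false

open Filter Topology Set

namespace Crest.Agent.R108

universe u

/-- Mazur: a norm-closed convex set is weakly closed. -/
theorem isClosed_toWeakSpace_image {X : Type u} [NormedAddCommGroup X] [NormedSpace ℝ X]
    (K : Set X) (hc : IsClosed K) (hconv : Convex ℝ K) :
    IsClosed ((toWeakSpace ℝ X) '' K) := by
  have h := hconv.toWeakSpace_closure (𝕜 := ℝ)
  rw [hc.closure_eq] at h
  rw [h]
  exact isClosed_closure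

theorem range_inclusionWeak {X : Type u} [NormedAddCommGroup X] [NormedSpace ℝ X]
    (hX : Refl X) : Set.range (NormedSpace.inclusionInDoubleDualWeak ℝ X) = Set.univ := by
  rw [Set.range_eq_univ]
  intro y
  obtain ⟨x, hx⟩ := hX (WeakDual.toStrongDual y)
  refine ⟨toWeakSpace ℝ X x, ?_⟩
  apply DFunLike.ext
  intro φ
  have := congrArg (fun (F : StrongDual ℝ (StrongDual ℝ X)) => F φ) hx
  exact this

section Weak

variable {X : Type u} [NormedAddCommGroup X] [NormedSpace ℝ X] [CompleteSpace X]

omit [CompleteSpace X] in
/-- the closure of a bounded set of a reflexive space is weakly compact -/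
theorem weak_compact_closure (hX : Refl X) (K : Set X) (hb : Bornology.IsBounded K) :
    IsCompact (closure ((toWeakSpace ℝ X) '' K)) := by
  apply NormedSpace.isCompact_closure_of_isBounded
  · rwa [Set.preimage_image_eq _ (toWeakSpace ℝ X).injective]
  · rw [range_inclusionWeak hX]
    exact Set.subset_univ _

/-- W1. closed bounded convex sets are compact in the weak space. -/
theorem weak_compact (hX : Refl X) (K : Set X) (hc : IsClosed K) (hconv : Convex ℝ K)
    (hb : Bornology.IsBounded K) :
    IsCompact ((toWeakSpace ℝ X) '' K) := by
  have h := weak_compact_closure hX K hb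
  rwa [(isClosed_toWeakSpace_image K hc hconv).closure_eq] at h

end Weak

end Crest.Agent.R108
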