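import Crest.Agent.R108.Defs

/-!
# R108 (S0142): closed subspaces of reflexive spaces are reflexive.
-/

set_option autoImplicit false

open Filter Topology Set

namespace Crest.Agent.R108

universe u

variable {X : Type u} [NormedAddCommGroup X] [NormedSpace ℝ X] [CompleteSpace X]

/-- W2. closed subspaces of reflexive spaces are reflexive. -/
theorem refl_subspace (hX : Refl X) (Y : Submodule ℝ X) (hY : IsClosed (Y : Set X)) : Refl Y := by
  intro ψ
  let r : (X →L[ℝ] ℝ) →L[ℝ] (Y →L[ℝ] ℝ) :=
    (ContinuousLinearMap.compL ℝ Y X ℝ).flip Y.subtypeL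
  obtain ⟨x, hx⟩ := hX (ψ.comp r)
  have hx' : ∀ f : X →L[ℝ] ℝ, f x = ψ (f.comp Y.subtypeL) := by
    intro f
    have h := congrArg (fun F => F f) hx
    simpa [r] using h
  have hxY : x ∈ Y := by
    by_contra hxY
    obtain ⟨f, u, hfx, hfY⟩ := geometric_hahn_banach_point_closed (t := (Y : Set X))
      (x := x) Y.convex hY hxY
    have hu : u < 0 := by simpa using hfY 0 Y.zero_mem
    have h0 : ∀ y ∈ Y, f y = 0 := by
      intro y hy
      by_contra hne
      have h1 := hfY (((u / f y)) • y) (Y.smul_mem _ hy)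
      rw [map_smul, smul_eq_mul, div_mul_cancel₀ _ hne] at h1
      exact lt_irrefl _ h1
    have h1 : f.comp Y.subtypeL = 0 := by
      ext y
      exact h0 y y.2
    have h2 := hx' f
    rw [h1, map_zero] at h2
    linarith
  refine ⟨⟨x, hxY⟩, ?_⟩
  ext g
  obtain ⟨f, hf, -⟩ := exists_extension_norm_eq Y g
  have h1 : f.comp Y.subtypeL = g := by
    ext y
    exact hf y
  have h2 := hx' f
  rw [h1] at h2
  rw [← h2]
  show g ⟨x, hxY⟩ = f x
  rw [← hf]

end Crest.Agent.R108
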